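import Vale.Agent.P011.D4.Defs3
import Mathlib.LinearAlgebra.Matrix.Adjugate
import Mathlib.RingTheory.Trace.Basic

/-!
Every norm-one quaternion over a cubic extension, different from `1` and `-1`, has a conjugate
which is orthogonal to a quaternion over the ground field that is not pure.
-/

namespace Vale.Agent.P011.D4.IF

open Vale.Agent.P011.MPQ Polynomial Module Matrix

section field

variable {k E : Type} [Field k] [Infinite k] [Field E] [Algebra k E] [FiniteDimensional k E]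

/-- The values of a rational function of degree four on a finite extension do not lie in a
proper subspace. -/
theorem exists_out8 (R : Submodule k E) (hR : R ≠ ⊤) (q : E) :
    ∃ c : E, 1 - 6 * (q * c ^ 2) + (q * c ^ 2) ^ 2 ≠ 0 ∧
      ∀ r ∈ R, c * (1 - q * c ^ 2) ≠ (1 - 6 * (q * c ^ 2) + (q * c ^ 2) ^ 2) * r := by
  obtain ⟨φ, hφ, hRφ⟩ := Submodule.exists_le_ker_of_lt_top R (lt_top_iff_ne_top.2 hR)
  obtain ⟨c1, hc1⟩ : ∃ c1 : E, φ c1 ≠ 0 := by
    by_contra h
    push Not at h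
    exact hφ (LinearMap.ext h)
  let B := Module.finBasis k E
  have hne : Nonempty (Fin (finrank k E)) := ⟨⟨0, finrank_pos⟩⟩
  let M := Algebra.leftMulMatrix B
  let s : E := q * c1 ^ 2
  let TX : Matrix (Fin (finrank k E)) (Fin (finrank k E)) k[X] :=
    Matrix.of fun i j => X ^ 2 * C (M s i j)
  let A := 1 - 6 • TX + TX ^ 2
  let P : k[X] := A.det * ((fun i => C (φ (B i))) ⬝ᵥ
    ((A.adjugate * (1 - TX)) *ᵥ (fun j => C (B.repr c1 j))))
  have hTX : ∀ t : k, (evalRingHom t).mapMatrix TX = M (s * algebraMap k E t ^ 2) := by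
    intro t
    have h1 : s * algebraMap k E t ^ 2 = (t ^ 2) • s := by
      rw [Algebra.smul_def, map_pow, mul_comm]
    rw [h1, map_smul]
    ext i j
    change evalRingHom t (X ^ 2 * C (M s i j)) = t ^ 2 * M s i j
    rw [coe_evalRingHom, eval_mul, eval_pow, eval_X, eval_C]
  have hA : ∀ t : k, (evalRingHom t).mapMatrix A =
      M (1 - 6 * (s * algebraMap k E t ^ 2) + (s * algebraMap k E t ^ 2) ^ 2) := by
    intro t
    change (evalRingHom t).mapMatrix (1 - 6 • TX + TX ^ 2) = _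
    have h6 : (6 : E) * (s * algebraMap k E t ^ 2) = 6 • (s * algebraMap k E t ^ 2) := by
      rw [nsmul_eq_mul]
      norm_num
    rw [map_add, map_sub, map_nsmul, map_pow, hTX, map_one, h6, map_add, map_sub, map_nsmul,
      map_pow, map_one]
  have hφs : ∀ y : E, (fun i => φ (B i)) ⬝ᵥ (fun j => B.repr y j) = φ y := by
    intro y
    conv_rhs => rw [← B.sum_repr y]
    rw [map_sum]
    refine Finset.sum_congr rfl fun i _ => ?_
    rw [map_smul, smul_eq_mul, mul_comm]
  have hPe : ∀ t : k, P.eval t = (M (1 - 6 * (s * algebraMap k E t ^ 2) +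
        (s * algebraMap k E t ^ 2) ^ 2)).det * ((fun i => φ (B i)) ⬝ᵥ
      (((M (1 - 6 * (s * algebraMap k E t ^ 2) +
        (s * algebraMap k E t ^ 2) ^ 2)).adjugate * M (1 - s * algebraMap k E t ^ 2)) *ᵥ
        (fun j => B.repr c1 j))) := by
    intro t
    have h1 : P.eval t = evalRingHom t P := rfl
    rw [h1]
    change evalRingHom t (A.det * ((fun i => C (φ (B i))) ⬝ᵥ
      ((A.adjugate * (1 - TX)) *ᵥ (fun j => C (B.repr c1 j))))) = _
    rw [map_mul, RingHom.map_det, hA, RingHom.map_dotProduct]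
    congr 2
    · ext i
      simp
    · ext i
      rw [Function.comp_apply, RingHom.map_mulVec]
      have h2 : (A.adjugate * (1 - TX)).map (evalRingHom t) =
          (evalRingHom t).mapMatrix (A.adjugate * (1 - TX)) := rfl
      rw [h2, map_mul, RingHom.map_adjugate, hA, map_sub, map_one, hTX, map_sub, map_one]
      congr 1
      ext j
      simp
  have hP : ∀ t : k, 1 - 6 * (s * algebraMap k E t ^ 2) + (s * algebraMap k E t ^ 2) ^ 2 ≠ 0 →
      P.eval t = (M (1 - 6 * (s * algebraMap k E t ^ 2) +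
        (s * algebraMap k E t ^ 2) ^ 2)).det ^ 2 *
        φ ((1 - 6 * (s * algebraMap k E t ^ 2) + (s * algebraMap k E t ^ 2) ^ 2)⁻¹ *
          (1 - s * algebraMap k E t ^ 2) * c1) := by
    intro t ht
    rw [hPe]
    generalize 1 - 6 * (s * algebraMap k E t ^ 2) + (s * algebraMap k E t ^ 2) ^ 2 = H at ht ⊢
    have h1 : (M H).adjugate = (M H).det • M H⁻¹ := by
      have h2 : (M H).adjugate * (M H * M H⁻¹) = (M H).det • M H⁻¹ := by
        rw [← mul_assoc, adjugate_mul, smul_mul_assoc, one_mul]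
      rwa [← map_mul, mul_inv_cancel₀ ht, map_one, mul_one] at h2
    have h3 : (fun i => φ (B i)) ⬝ᵥ (M (H⁻¹ * (1 - s * algebraMap k E t ^ 2)) *ᵥ
        fun j => B.repr c1 j) = φ (H⁻¹ * (1 - s * algebraMap k E t ^ 2) * c1) := by
      rw [← hφs, ← Algebra.leftMulMatrix_mulVec_repr]
    rw [h1, smul_mul_assoc, ← map_mul, smul_mulVec, dotProduct_smul, smul_eq_mul, h3]
    ring
  have hP0 : ∀ t : k, 1 - 6 * (s * algebraMap k E t ^ 2) + (s * algebraMap k E t ^ 2) ^ 2 = 0 →
      P.eval t = 0 := by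
    intro t ht
    rw [hPe, ht, map_zero, det_zero, zero_mul]
  have h0 : P.eval 0 ≠ 0 := by
    rw [hP 0 (by simp)]
    simpa using hc1
  obtain ⟨t, ht⟩ : ∃ t : k, (X * P).eval t ≠ 0 := by
    by_contra h
    push Not at h
    have h2 : X * P = 0 := Polynomial.funext (fun r => by rw [h r, eval_zero])
    rcases mul_eq_zero.1 h2 with h3 | h3
    · exact X_ne_zero h3
    · rw [h3, eval_zero] at h0
      exact h0 rfl
  rw [eval_mul, eval_X] at ht
  have ht0 : t ≠ 0 := left_ne_zero_of_mul ht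
  have htP : P.eval t ≠ 0 := right_ne_zero_of_mul ht
  have hH : 1 - 6 * (s * algebraMap k E t ^ 2) + (s * algebraMap k E t ^ 2) ^ 2 ≠ 0 :=
    fun h => htP (hP0 t h)
  have htE : algebraMap k E t ≠ 0 := by
    rwa [Ne, map_eq_zero]
  have hq : q * (algebraMap k E t * c1) ^ 2 = s * algebraMap k E t ^ 2 := by
    change q * (algebraMap k E t * c1) ^ 2 = q * c1 ^ 2 * algebraMap k E t ^ 2
    ring
  refine ⟨algebraMap k E t * c1, by rwa [hq], fun r hr h => ?_⟩
  rw [hq] at h
  apply htP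
  rw [hP t hH]
  generalize 1 - 6 * (s * algebraMap k E t ^ 2) + (s * algebraMap k E t ^ 2) ^ 2 = H at h hH ⊢
  have h4 : H⁻¹ * (1 - s * algebraMap k E t ^ 2) * c1 = t⁻¹ • r := by
    rw [Algebra.smul_def, map_inv₀, mul_assoc, inv_mul_eq_iff_eq_mul₀ hH]
    have h5 : (algebraMap k E t)⁻¹ * algebraMap k E t = 1 := inv_mul_cancel₀ htE
    linear_combination (algebraMap k E t)⁻¹ * h - (1 - s * algebraMap k E t ^ 2) * c1 * h5
  rw [h4, hRφ (R.smul_mem _ hr), mul_zero]

end field

section quat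

variable {F : Type} [Field F] {a b : Fˣ}

/-- The rotation in the plane of two orthogonal pure quaternions. -/
theorem rot8 (x0 x1 x2 x3 v1 v2 v3 A B : F)
    (h : (a : F) * x1 * v1 + b * x2 * v2 - a * b * x3 * v3 = 0) :
    ((⟨A, 0, 0, 0⟩ : Qt a b) + B • ((⟨0, x1, x2, x3⟩ : Qt a b) * ⟨0, v1, v2, v3⟩)) *
        ⟨x0, x1, x2, x3⟩ *
        star ((⟨A, 0, 0, 0⟩ : Qt a b) + B • ((⟨0, x1, x2, x3⟩ : Qt a b) * ⟨0, v1, v2, v3⟩)) =
      ⟨x0 * (A ^ 2 + B ^ 2 * nrd (⟨0, x1, x2, x3⟩ : Qt a b) * nrd (⟨0, v1, v2, v3⟩ : Qt a b)),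
        0, 0, 0⟩ +
      (A ^ 2 - B ^ 2 * nrd (⟨0, x1, x2, x3⟩ : Qt a b) * nrd (⟨0, v1, v2, v3⟩ : Qt a b)) •
        (⟨0, x1, x2, x3⟩ : Qt a b) +
      (2 * A * B * nrd (⟨0, x1, x2, x3⟩ : Qt a b)) • (⟨0, v1, v2, v3⟩ : Qt a b) := by
  ext <;>
  simp only [QuaternionAlgebra.re_mul, QuaternionAlgebra.imI_mul, QuaternionAlgebra.imJ_mul,
    QuaternionAlgebra.imK_mul, QuaternionAlgebra.re_star, QuaternionAlgebra.imI_star,
    QuaternionAlgebra.imJ_star, QuaternionAlgebra.imK_star, QuaternionAlgebra.re_add,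
    QuaternionAlgebra.imI_add, QuaternionAlgebra.imJ_add, QuaternionAlgebra.imK_add,
    QuaternionAlgebra.re_smul, QuaternionAlgebra.imI_smul, QuaternionAlgebra.imJ_smul,
    QuaternionAlgebra.imK_smul, smul_eq_mul, nrd]
  · linear_combination (2 * A * B * x0) * h
  · linear_combination (4 * A * B * x1 + 2 * B ^ 2 *
      (-a * x1 ^ 2 - b * x2 ^ 2 + a * b * x3 ^ 2) * v1 + 4 * B ^ 2 *
      (a * x1 * v1 + b * x2 * v2 - a * b * x3 * v3) * x1) * h
  · linear_combination (4 * A * B * x2 + 2 * B ^ 2 *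
      (-a * x1 ^ 2 - b * x2 ^ 2 + a * b * x3 ^ 2) * v2 + 4 * B ^ 2 *
      (a * x1 * v1 + b * x2 * v2 - a * b * x3 * v3) * x2) * h
  · linear_combination (4 * A * B * x3 + 2 * B ^ 2 *
      (-a * x1 ^ 2 - b * x2 ^ 2 + a * b * x3 ^ 2) * v3 + 4 * B ^ 2 *
      (a * x1 * v1 + b * x2 * v2 - a * b * x3 * v3) * x3) * h

theorem nrd_rot8 (x1 x2 x3 v1 v2 v3 A B : F)
    (h : (a : F) * x1 * v1 + b * x2 * v2 - a * b * x3 * v3 = 0) :
    nrd ((⟨A, 0, 0, 0⟩ : Qt a b) + B • ((⟨0, x1, x2, x3⟩ : Qt a b) * ⟨0, v1, v2, v3⟩)) =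
      A ^ 2 + B ^ 2 * nrd (⟨0, x1, x2, x3⟩ : Qt a b) * nrd (⟨0, v1, v2, v3⟩ : Qt a b) := by
  simp only [QuaternionAlgebra.re_mul, QuaternionAlgebra.imI_mul, QuaternionAlgebra.imJ_mul,
    QuaternionAlgebra.imK_mul, QuaternionAlgebra.re_add,
    QuaternionAlgebra.imI_add, QuaternionAlgebra.imJ_add, QuaternionAlgebra.imK_add,
    QuaternionAlgebra.re_smul, QuaternionAlgebra.imI_smul, QuaternionAlgebra.imJ_smul,
    QuaternionAlgebra.imK_smul, smul_eq_mul, nrd]
  linear_combination (2 * A * B) * h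

theorem mul_star8 {z : Qt a b} (hz : nrd z = 1) : z * star z = 1 := by
  unfold nrd at hz
  ext <;> simp
  · linear_combination hz
  all_goals ring

theorem star_mul8 {z : Qt a b} (hz : nrd z = 1) : star z * z = 1 := by
  unfold nrd at hz
  ext <;> simp
  · linear_combination hz
  all_goals ring

theorem nrd_star8 {z : Qt a b} (hz : nrd z = 1) : nrd (star z) = 1 := by
  have h := congrArg nrd (mul_star8 hz)
  rwa [nrd_mul, hz, one_mul, nrd_one] at h

end quat

section main

variable {k E : Type} [Field k] [Field E] [Algebra k E] {a b : kˣ}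

/-- The real part of the product with a pure quaternion over the ground field. -/
def rel8 (x : Qt (up E a) (up E b)) : (Fin 3 → k) →ₗ[k] E where
  toFun s := (a * s 0 : k) • x.imI + (b * s 1 : k) • x.imJ - (a * b * s 2 : k) • x.imK
  map_add' s t := by
    simp only [Pi.add_apply, mul_add, add_smul]
    abel
  map_smul' r s := by
    simp only [Pi.smul_apply, smul_eq_mul, RingHom.id_apply, smul_sub, smul_add, smul_smul]
    simp only [mul_left_comm]

theorem rel8_apply (x : Qt (up E a) (up E b)) (s : Fin 3 → k) :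
    rel8 x s = algebraMap k E (a * s 0) * x.imI + algebraMap k E (b * s 1) * x.imJ -
      algebraMap k E (a * b * s 2) * x.imK := by
  simp only [rel8, LinearMap.coe_mk, AddHom.coe_mk, Algebra.smul_def]

theorem re_mul_qup (x : Qt (up E a) (up E b)) (u : Qt a b) :
    (x * qup E u).re = x.re * algebraMap k E u.re + rel8 x ![u.imI, u.imJ, u.imK] := by
  rw [rel8_apply, QuaternionAlgebra.re_mul]
  simp only [qup, up, Units.coe_map, MonoidHom.coe_coe, Matrix.cons_val_zero, Matrix.cons_val_one,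
    Matrix.cons_val, map_mul]
  ring

theorem rel8_add (x y : Qt (up E a) (up E b)) (s : Fin 3 → k) :
    rel8 (x + y) s = rel8 x s + rel8 y s := by
  simp only [rel8_apply, QuaternionAlgebra.imI_add, QuaternionAlgebra.imJ_add,
    QuaternionAlgebra.imK_add]
  ring

theorem rel8_smul (r : E) (x : Qt (up E a) (up E b)) (s : Fin 3 → k) :
    rel8 (r • x) s = r * rel8 x s := by
  simp only [rel8_apply, QuaternionAlgebra.imI_smul, QuaternionAlgebra.imJ_smul,
    QuaternionAlgebra.imK_smul, smul_eq_mul]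
  ring

theorem nrd_smul8 (r : E) (x : Qt (up E a) (up E b)) : nrd (r • x) = r ^ 2 * nrd x := by
  simp only [nrd, QuaternionAlgebra.re_smul, QuaternionAlgebra.imI_smul,
    QuaternionAlgebra.imJ_smul, QuaternionAlgebra.imK_smul, smul_eq_mul]
  ring

theorem step8 [CharZero k] (h3 : finrank k E = 3) (hab : Aniso (up E a) (up E b))
    (x : Qt (up E a) (up E b)) (hx : nrd x = 1) (h1 : x ≠ 1) (h2 : x ≠ -1) (v : Fin 3 → k)
    (hv : v ≠ 0) (hvx : rel8 x v = 0) :
    ∃ z : Qt (up E a) (up E b), nrd z = 1 ∧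
      LinearMap.ker (rel8 (z * x * star z)) < LinearMap.ker (rel8 x) := by
  have hfin : FiniteDimensional k E := Module.finite_of_finrank_pos (by rw [h3]; norm_num)
  have hchar : CharZero E := charZero_of_injective_algebraMap (algebraMap k E).injective
  obtain ⟨x0, x1, x2, x3⟩ := x
  have hp : (⟨0, x1, x2, x3⟩ : Qt (up E a) (up E b)) ≠ 0 := by
    intro h
    have e1 : x1 = 0 := congrArg QuaternionAlgebra.imI h
    have e2 : x2 = 0 := congrArg QuaternionAlgebra.imJ h
    have e3 : x3 = 0 := congrArg QuaternionAlgebra.imK h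
    subst e1 e2 e3
    have h4 : (x0 - 1) * (x0 + 1) = 0 := by
      simp only [nrd] at hx
      linear_combination hx
    rcases mul_eq_zero.1 h4 with h5 | h5
    · exact h1 (by rw [sub_eq_zero.1 h5]; rfl)
    · exact h2 (by
        rw [eq_neg_of_add_eq_zero_left h5]
        ext <;> simp)
  have hnp : nrd (⟨0, x1, x2, x3⟩ : Qt (up E a) (up E b)) ≠ 0 := fun h => hp (hab _ h)
  have hV : (⟨0, algebraMap k E (v 0), algebraMap k E (v 1), algebraMap k E (v 2)⟩ :
      Qt (up E a) (up E b)) ≠ 0 := by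
    intro h
    have e1 : algebraMap k E (v 0) = 0 := congrArg QuaternionAlgebra.imI h
    have e2 : algebraMap k E (v 1) = 0 := congrArg QuaternionAlgebra.imJ h
    have e3 : algebraMap k E (v 2) = 0 := congrArg QuaternionAlgebra.imK h
    apply hv
    funext i
    fin_cases i
    · exact (map_eq_zero _).1 e1
    · exact (map_eq_zero _).1 e2
    · exact (map_eq_zero _).1 e3
  have hnV : nrd (⟨0, algebraMap k E (v 0), algebraMap k E (v 1), algebraMap k E (v 2)⟩ :
      Qt (up E a) (up E b)) ≠ 0 := fun h => hV (hab _ h)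
  have hR : LinearMap.range (rel8 (⟨x0, x1, x2, x3⟩ : Qt (up E a) (up E b))) ≠ ⊤ := by
    intro h
    have h5 : Function.Injective (rel8 (⟨x0, x1, x2, x3⟩ : Qt (up E a) (up E b))) := by
      rw [LinearMap.injective_iff_surjective_of_finrank_eq_finrank (by rw [h3]; simp)]
      exact LinearMap.range_eq_top.1 h
    exact hv (h5 (by rw [hvx, map_zero]))
  obtain ⟨c, hc1, hc2⟩ := exists_out8 _ hR
    (nrd (⟨0, algebraMap k E (v 0), algebraMap k E (v 1), algebraMap k E (v 2)⟩ :
      Qt (up E a) (up E b)) / (16 * nrd (⟨0, x1, x2, x3⟩ : Qt (up E a) (up E b))))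
  have hrel : ((up E a : Eˣ) : E) * x1 * algebraMap k E (v 0) +
      ((up E b : Eˣ) : E) * x2 * algebraMap k E (v 1) -
      ((up E a : Eˣ) : E) * ((up E b : Eˣ) : E) * x3 * algebraMap k E (v 2) = 0 := by
    rw [rel8_apply] at hvx
    simp only [up, Units.coe_map, MonoidHom.coe_coe, map_mul] at hvx ⊢
    linear_combination hvx
  have hVV : ∀ s : Fin 3 → k,
      rel8 (⟨0, algebraMap k E (v 0), algebraMap k E (v 1), algebraMap k E (v 2)⟩ :
        Qt (up E a) (up E b)) s =
      algebraMap k E (a * s 0 * v 0 + b * s 1 * v 1 - a * b * s 2 * v 2) := by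
    intro s
    rw [rel8_apply]
    simp only [map_sub, map_add, map_mul]
  have hVn : nrd (⟨0, algebraMap k E (v 0), algebraMap k E (v 1), algebraMap k E (v 2)⟩ :
      Qt (up E a) (up E b)) =
      -algebraMap k E (a * v 0 * v 0 + b * v 1 * v 1 - a * b * v 2 * v 2) := by
    simp only [nrd, up, Units.coe_map, MonoidHom.coe_coe, map_sub, map_add, map_mul]
    ring
  set P : Qt (up E a) (up E b) := ⟨0, x1, x2, x3⟩ with hPdef
  set V : Qt (up E a) (up E b) :=
    ⟨0, algebraMap k E (v 0), algebraMap k E (v 1), algebraMap k E (v 2)⟩ with hVdef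
  set N : E := nrd V / (16 * nrd P) * c ^ 2 with hNdef
  have hN1 : (2 * (c / (4 * nrd P))) ^ 2 * nrd P * nrd V = 4 * N := by
    rw [hNdef]
    field_simp
    ring
  have hN2 : (c / (4 * nrd P)) ^ 2 * nrd P * nrd V = N := by
    rw [hNdef]
    field_simp
    ring
  have hN3 : 4 * (c / (4 * nrd P)) * nrd P = c := by
    field_simp
  have hrot := rot8 x0 x1 x2 x3 (algebraMap k E (v 0)) (algebraMap k E (v 1))
    (algebraMap k E (v 2)) (1 - N) (2 * (c / (4 * nrd P))) hrel
  have hnw := nrd_rot8 x1 x2 x3 (algebraMap k E (v 0)) (algebraMap k E (v 1))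
    (algebraMap k E (v 2)) (1 - N) (2 * (c / (4 * nrd P))) hrel
  have hn1 := nrd_rot8 x1 x2 x3 (algebraMap k E (v 0)) (algebraMap k E (v 1))
    (algebraMap k E (v 2)) 1 (c / (4 * nrd P)) hrel
  have hre : (P * V).re = 0 := by
    rw [hPdef, hVdef, QuaternionAlgebra.re_mul]
    simp only
    linear_combination hrel
  rw [← hPdef, ← hVdef] at hrot hnw hn1
  have hN0 : 1 + N ≠ 0 := by
    intro h
    rw [hN2, one_pow, h] at hn1
    have h6 := congrArg QuaternionAlgebra.re (hab _ hn1)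
    rw [QuaternionAlgebra.re_add, QuaternionAlgebra.re_smul, hre, smul_zero, add_zero] at h6
    exact one_ne_zero h6
  rw [hN1] at hnw
  set w : Qt (up E a) (up E b) := ⟨1 - N, 0, 0, 0⟩ + (2 * (c / (4 * nrd P))) • (P * V)
    with hwdef
  have hkey : ∀ s : Fin 3 → k,
      rel8 (((1 + N)⁻¹ • w) * ⟨x0, x1, x2, x3⟩ * star ((1 + N)⁻¹ • w)) s =
        ((1 + N)⁻¹) ^ 2 * ((1 - 6 * N + N ^ 2) * rel8 (⟨x0, x1, x2, x3⟩ : Qt (up E a) (up E b)) s +
          c * (1 - N) *
            algebraMap k E (a * s 0 * v 0 + b * s 1 * v 1 - a * b * s 2 * v 2)) := by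
    intro s
    have e1 : ((1 + N)⁻¹ • w) * ⟨x0, x1, x2, x3⟩ * star ((1 + N)⁻¹ • w) =
        ((1 + N)⁻¹) ^ 2 • (w * ⟨x0, x1, x2, x3⟩ * star w) := by
      rw [QuaternionAlgebra.star_smul, smul_mul_assoc, smul_mul_assoc, mul_smul_comm, smul_smul,
        pow_two]
    have e2 : ∀ t : E, rel8 (⟨t, 0, 0, 0⟩ : Qt (up E a) (up E b)) s = 0 := by
      intro t
      rw [rel8_apply]
      simp
    have e3 : rel8 P s = rel8 (⟨x0, x1, x2, x3⟩ : Qt (up E a) (up E b)) s := by
      rw [rel8_apply, rel8_apply]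
    rw [e1, hrot, rel8_smul, rel8_add, rel8_add, e2, rel8_smul, rel8_smul, e3, hVV, hN1]
    linear_combination ((1 + N)⁻¹) ^ 2 * (1 - N) *
      algebraMap k E (a * s 0 * v 0 + b * s 1 * v 1 - a * b * s 2 * v 2) * hN3
  refine ⟨(1 + N)⁻¹ • w, ?_, ?_⟩
  · rw [nrd_smul8, hnw]
    field_simp
    ring
  · rw [SetLike.lt_iff_le_and_exists]
    constructor
    · intro s hs
      rw [LinearMap.mem_ker, hkey] at hs
      rw [LinearMap.mem_ker]
      have h7 := (mul_eq_zero.1 hs).resolve_left (pow_ne_zero 2 (inv_ne_zero hN0))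
      by_cases h8 : (a * s 0 * v 0 + b * s 1 * v 1 - a * b * s 2 * v 2 : k) = 0
      · rw [h8, map_zero, mul_zero, add_zero] at h7
        exact (mul_eq_zero.1 h7).resolve_left hc1
      · exfalso
        apply hc2 (-(a * s 0 * v 0 + b * s 1 * v 1 - a * b * s 2 * v 2 : k)⁻¹ •
          rel8 (⟨x0, x1, x2, x3⟩ : Qt (up E a) (up E b)) s)
          (Submodule.smul_mem _ _ ⟨s, rfl⟩)
        have h9 : algebraMap k E (a * s 0 * v 0 + b * s 1 * v 1 - a * b * s 2 * v 2) ≠ 0 := by
          rwa [Ne, map_eq_zero]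
        rw [Algebra.smul_def, map_neg, map_inv₀]
        field_simp
        linear_combination h7
    · refine ⟨v, hvx, fun h => ?_⟩
      rw [LinearMap.mem_ker, hkey, hvx, mul_zero, zero_add] at h
      rcases mul_eq_zero.1 h with h7 | h7
      · exact pow_ne_zero 2 (inv_ne_zero hN0) h7
      · rcases mul_eq_zero.1 h7 with h8 | h8
        · exact hc2 0 (Submodule.zero_mem _) (by rw [mul_zero]; exact h8)
        · exact hnV (by rw [hVn, h8, neg_zero])

/-- Four unknowns and three equations. -/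
theorem exists_of_ker8 (h3 : finrank k E = 3) (x : Qt (up E a) (up E b))
    (hx : LinearMap.ker (rel8 x) = ⊥) :
    ∃ u : Qt a b, u.re ≠ 0 ∧ (x * qup E u).re = 0 := by
  have hfin : FiniteDimensional k E := Module.finite_of_finrank_pos (by rw [h3]; norm_num)
  have hf : LinearMap.ker ((LinearMap.toSpanSingleton k E x.re).coprod (rel8 x)) ≠ ⊥ := by
    apply LinearMap.ker_ne_bot_of_finrank_lt
    rw [h3, finrank_prod]
    simp
  obtain ⟨⟨r, s⟩, hu, hu0⟩ := (Submodule.ne_bot_iff _).1 hf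
  rw [LinearMap.mem_ker, LinearMap.coprod_apply, LinearMap.toSpanSingleton_apply,
    Algebra.smul_def] at hu
  have hs : ![s 0, s 1, s 2] = s := by
    funext i
    fin_cases i <;> rfl
  refine ⟨⟨r, s 0, s 1, s 2⟩, fun hr => ?_, ?_⟩
  · simp only at hr
    rw [hr, map_zero, zero_mul, zero_add] at hu
    have h5 : s ∈ LinearMap.ker (rel8 x) := hu
    rw [hx, Submodule.mem_bot] at h5
    exact hu0 (by rw [hr, h5]; rfl)
  · rw [re_mul_qup]
    simp only
    rw [hs, mul_comm, hu]

/-- Induction on the space of pure quaternions orthogonal to `x`. -/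
theorem exists_nonpure_aux [CharZero k] (h3 : finrank k E = 3)
    (hab : Aniso (up E a) (up E b)) (n : ℕ) : ∀ x : Qt (up E a) (up E b), nrd x = 1 → x ≠ 1 →
      x ≠ -1 → finrank k (LinearMap.ker (rel8 x)) ≤ n →
      ∃ z : Qt (up E a) (up E b), nrd z = 1 ∧
        ∃ u : Qt a b, u.re ≠ 0 ∧ (z * x * star z * qup E u).re = 0 := by
  induction n with
  | zero =>
    intro x hx h1 h2 hn
    have h4 : LinearMap.ker (rel8 x) = ⊥ := Submodule.finrank_eq_zero.1 (Nat.le_zero.1 hn)
    refine ⟨1, nrd_one, ?_⟩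
    rw [one_mul, star_one, mul_one]
    exact exists_of_ker8 h3 x h4
  | succ n ih =>
    intro x hx h1 h2 hn
    by_cases h4 : LinearMap.ker (rel8 x) = ⊥
    · refine ⟨1, nrd_one, ?_⟩
      rw [one_mul, star_one, mul_one]
      exact exists_of_ker8 h3 x h4
    · obtain ⟨v, hvx, hv⟩ := (Submodule.ne_bot_iff _).1 h4
      obtain ⟨z, hz, hlt⟩ := step8 h3 hab x hx h1 h2 v hv hvx
      have hzz := star_mul8 hz
      have hcj : star z * (z * x * star z) * z = x := by
        rw [mul_assoc z, ← mul_assoc (star z), hzz, one_mul, mul_assoc, hzz, mul_one]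
      obtain ⟨z', hz', u, hu, hzu⟩ := ih (z * x * star z) (by
          rw [nrd_mul, nrd_mul, hz, hx, nrd_star8 hz, one_mul, one_mul])
        (fun h => h1 (by rw [← hcj, h, mul_one, hzz]))
        (fun h => h2 (by rw [← hcj, h, mul_neg, mul_one, neg_mul, hzz]))
        (Nat.le_of_lt_succ (lt_of_lt_of_le (Submodule.finrank_lt_finrank_of_lt hlt) hn))
      refine ⟨z' * z, by rw [nrd_mul, hz, hz', one_mul], u, hu, ?_⟩
      have h6 : z' * z * x * star (z' * z) = z' * (z * x * star z) * star z' := by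
        rw [star_mul]
        simp only [mul_assoc]
      rw [h6]
      exact hzu

/-- Every norm-one quaternion over a cubic extension, different from `1` and `-1`, has a
conjugate which is orthogonal to a quaternion over the ground field that is not pure. -/
theorem exists_nonpure [CharZero k] (h3 : finrank k E = 3)
    (hab : Aniso (up E a) (up E b)) (x : Qt (up E a) (up E b)) (hx : nrd x = 1) (h1 : x ≠ 1)
    (h2 : x ≠ -1) :
    ∃ z : Qt (up E a) (up E b), nrd z = 1 ∧
      ∃ u : Qt a b, u.re ≠ 0 ∧ (z * x * star z * qup E u).re = 0 :=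
  exists_nonpure_aux h3 hab _ x hx h1 h2 le_rfl

end main

end Vale.Agent.P011.D4.IF
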