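import Vale.Agent.P011.D4.R1
import Vale.Agent.P011.D4.NTS
import Vale.Agent.P011.E6.GoodQ

/-!
The long elements of the automorphism group of an octonion algebra are inverted by the
involutions of suitable quaternion subalgebras.
-/

namespace Vale.Agent.P011.D4.IF

open Vale.Agent.P011.MPQ Vale.Agent.P011.D4 Vale.Agent.P011.D4.Oct

section alg

variable {F : Type} [Field F] {a b c : Fˣ}

theorem q_mul_star (x : Qt a b) : x * star x = algebraMap F (Qt a b) (nrd x) := by
  rw [QuaternionAlgebra.algebraMap_eq]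
  apply QuaternionAlgebra.ext <;>
    simp only [QuaternionAlgebra.re_mul, QuaternionAlgebra.imI_mul, QuaternionAlgebra.imJ_mul,
      QuaternionAlgebra.imK_mul, QuaternionAlgebra.re_star, QuaternionAlgebra.imI_star,
      QuaternionAlgebra.imJ_star, QuaternionAlgebra.imK_star, nrd] <;>
    ring

theorem q_star_mul (x : Qt a b) : star x * x = algebraMap F (Qt a b) (nrd x) := by
  rw [QuaternionAlgebra.algebraMap_eq]
  apply QuaternionAlgebra.ext <;>
    simp only [QuaternionAlgebra.re_mul, QuaternionAlgebra.imI_mul, QuaternionAlgebra.imJ_mul,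
      QuaternionAlgebra.imK_mul, QuaternionAlgebra.re_star, QuaternionAlgebra.imI_star,
      QuaternionAlgebra.imJ_star, QuaternionAlgebra.imK_star, nrd] <;>
    ring

theorem q_mul_star_mul (x y : Qt a b) : x * (star x * y) = nrd x • y := by
  rw [← mul_assoc, q_mul_star, ← Algebra.smul_def]

theorem q_star_mul_mul (x y : Qt a b) : star x * (x * y) = nrd x • y := by
  rw [← mul_assoc, q_star_mul, ← Algebra.smul_def]

theorem q_mul_mul_star (x y : Qt a b) : y * x * star x = nrd x • y := by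
  rw [mul_assoc, q_mul_star, ← Algebra.commutes, ← Algebra.smul_def]

theorem q_mul_star_mul' (x y : Qt a b) : y * star x * x = nrd x • y := by
  rw [mul_assoc, q_star_mul, ← Algebra.commutes, ← Algebra.smul_def]

theorem nrd_star' (x : Qt a b) : nrd (star x) = nrd x := by
  simp only [nrd, QuaternionAlgebra.re_star, QuaternionAlgebra.imI_star,
    QuaternionAlgebra.imJ_star, QuaternionAlgebra.imK_star]
  ring

/-- The map given by a pair of quaternions of the same norm. -/
def nrmFun (x y : Qt a b) (z : Oct a b c) : Oct a b c :=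
  ⟨(nrd x)⁻¹ • (x * z.fst * star x), (nrd x)⁻¹ • (y * z.snd * star x)⟩

theorem nrmFun_star (x y : Qt a b) (hx : nrd x ≠ 0) (hxy : nrd y = nrd x) (z : Oct a b c) :
    nrmFun (star x) (star y) (nrmFun x y z) = z := by
  apply Oct.ext
  · simp only [nrmFun, nrd_star', star_star]
    rw [mul_smul_comm, smul_mul_assoc, mul_assoc x, ← mul_assoc (star x), q_star_mul,
      ← Algebra.smul_def, smul_mul_assoc, q_mul_star_mul', smul_smul, smul_smul, smul_smul]
    rw [show (nrd x)⁻¹ * (nrd x)⁻¹ * nrd x * nrd x = 1 by field_simp, one_smul]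
  · simp only [nrmFun, nrd_star', star_star]
    rw [mul_smul_comm, smul_mul_assoc, mul_assoc y, ← mul_assoc (star y), q_star_mul,
      ← Algebra.smul_def, smul_mul_assoc, q_mul_star_mul', smul_smul, smul_smul, smul_smul, hxy]
    rw [show (nrd x)⁻¹ * (nrd x)⁻¹ * nrd x * nrd x = 1 by field_simp, one_smul]

theorem nrmFun_mul (x y : Qt a b) (hx : nrd x ≠ 0) (hxy : nrd y = nrd x) (z w : Oct a b c) :
    nrmFun x y (z * w) = nrmFun x y z * nrmFun x y w := by
  have hs : ∀ (t : F) (p : Qt a b), star (t • p) = t • star p := fun t p => by ext <;> simp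
  apply Oct.ext
  · simp only [nrmFun, Oct.fst_mul]
    rw [smul_mul_smul_comm, hs, smul_mul_smul_comm, star_mul, star_mul, star_star]
    have e1 : x * z.fst * star x * (x * w.fst * star x) = nrd x • (x * (z.fst * w.fst) * star x) := by
      rw [mul_assoc x w.fst, ← mul_assoc (x * z.fst * star x), q_mul_star_mul', smul_mul_assoc]
      congr 1
      simp only [mul_assoc]
    have e2 : x * (star w.snd * star y) * (y * z.snd * star x) =
        nrd x • (x * (star w.snd * z.snd) * star x) := by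
      rw [mul_assoc y, ← mul_assoc (x * (star w.snd * star y)), ← mul_assoc x (star w.snd) (star y),
        q_mul_star_mul', hxy, smul_mul_assoc]
      congr 1
      simp only [mul_assoc]
    rw [e1, e2, mul_add, add_mul, smul_add, smul_smul, smul_smul, smul_smul, mul_smul_comm,
      smul_mul_assoc, smul_smul]
    congr 1
    · congr 1
      field_simp
    · congr 1
      field_simp
  · simp only [nrmFun, Oct.snd_mul]
    rw [smul_mul_smul_comm, hs, smul_mul_smul_comm, star_mul, star_mul, star_star]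
    have e1 : y * w.snd * star x * (x * z.fst * star x) =
        nrd x • (y * (w.snd * z.fst) * star x) := by
      rw [mul_assoc x, ← mul_assoc (y * w.snd * star x), q_mul_star_mul', smul_mul_assoc]
      congr 1
      simp only [mul_assoc]
    have e2 : y * z.snd * star x * (x * (star w.fst * star x)) =
        nrd x • (y * (z.snd * star w.fst) * star x) := by
      rw [← mul_assoc (y * z.snd * star x), q_mul_star_mul', smul_mul_assoc]
      congr 1
      simp only [mul_assoc]
    rw [e1, e2, mul_add, add_mul, smul_add, smul_smul, smul_smul]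
    congr 1
    · congr 1
      field_simp
    · congr 1
      field_simp

/-- The automorphism given by a pair of quaternions of the same norm. -/
def nrm (x y : Qt a b) (hx : nrd x ≠ 0) (hxy : nrd y = nrd x) : AutC a b c :=
  ⟨{ toFun := nrmFun x y
     invFun := nrmFun (star x) (star y)
     left_inv := nrmFun_star x y hx hxy
     right_inv := fun z => by
       have e := nrmFun_star (star x) (star y) (by rw [nrd_star']; exact hx)
         (by rw [nrd_star', nrd_star', hxy]) z
       rwa [star_star, star_star] at e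
     map_add' := fun z w => by
       apply Oct.ext
       · simp only [nrmFun, Oct.fst_add, mul_add, add_mul, smul_add]
       · simp only [nrmFun, Oct.snd_add, mul_add, add_mul, smul_add]
     map_smul' := fun t z => by
       apply Oct.ext
       · simp only [nrmFun, Oct.fst_smul, mul_smul_comm, smul_mul_assoc, RingHom.id_apply]
         rw [smul_comm]
       · simp only [nrmFun, Oct.snd_smul, mul_smul_comm, smul_mul_assoc, RingHom.id_apply]
         rw [smul_comm] }, fun z w => nrmFun_mul x y hx hxy z w⟩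

theorem nrm_apply (x y : Qt a b) (hx : nrd x ≠ 0) (hxy : nrd y = nrd x) (z : Oct a b c) :
    (nrm x y hx hxy).1 z = nrmFun x y z := rfl

theorem long_apply (t : SL1 a b) (z : Oct a b c) :
    (long a b c t).1 z = ⟨z.fst, ((t : (Qt a b)ˣ) : Qt a b) * z.snd⟩ := rfl

/-- The involution inverts the long elements. -/
theorem nrm_long (x y : Qt a b) (hx : nrd x ≠ 0) (hxy : nrd y = nrd x) (t : SL1 a b)
    (ht : y * ((t : (Qt a b)ˣ) : Qt a b) = star ((t : (Qt a b)ˣ) : Qt a b) * y) :
    nrm x y hx hxy * long a b c t * (nrm x y hx hxy)⁻¹ = (long a b c t)⁻¹ := by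
  rw [mul_inv_eq_iff_eq_mul, eq_inv_mul_iff_mul_eq]
  apply Subtype.ext
  apply LinearEquiv.ext
  intro z
  have h1 : nrd ((t : (Qt a b)ˣ) : Qt a b) = 1 := t.2
  change (long a b c t).1 ((nrm x y hx hxy).1 ((long a b c t).1 z)) = (nrm x y hx hxy).1 z
  rw [nrm_apply, nrm_apply, long_apply, long_apply]
  apply Oct.ext
  · rfl
  · simp only [nrmFun]
    rw [mul_smul_comm, ← mul_assoc y, ht, mul_assoc (star _), mul_assoc (star _), q_mul_star_mul,
      h1, one_smul]

/-- The configuration of quaternions behind the involution. -/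
structure Conf (q i1 t0 : Qt a b) (α : F) : Prop where
  i1s : star i1 = -i1
  t0s : star t0 = -t0
  sq : i1 * i1 = algebraMap F (Qt a b) α
  anti : i1 * t0 = -(t0 * i1)
  q0 : nrd q ≠ 0

/-- The conjugate by the quaternion. -/
def cq (q x : Qt a b) : Qt a b := (nrd q)⁻¹ • (star q * x * q)

theorem mul_cq {q : Qt a b} (hq : nrd q ≠ 0) (x : Qt a b) : q * cq q x = x * q := by
  rw [cq, mul_smul_comm, ← mul_assoc, ← mul_assoc, q_mul_star, ← Algebra.smul_def, smul_mul_assoc,
    smul_smul, inv_mul_cancel₀ hq, one_smul]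

theorem star_cq (q x : Qt a b) : star (cq q x) = cq q (star x) := by
  have hs : ∀ (t : F) (p : Qt a b), star (t • p) = t • star p := fun t p => by ext <;> simp
  rw [cq, cq, hs, star_mul, star_mul, star_star, mul_assoc]

theorem cq_mul {q : Qt a b} (hq : nrd q ≠ 0) (x y : Qt a b) :
    cq q x * cq q y = cq q (x * y) := by
  rw [cq, smul_mul_assoc, mul_assoc, mul_cq hq, cq]
  simp only [mul_assoc]

theorem cq_algebraMap {q : Qt a b} (hq : nrd q ≠ 0) (t : F) :
    cq q (algebraMap F (Qt a b) t) = algebraMap F (Qt a b) t := by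
  rw [cq, ← Algebra.commutes, mul_assoc, q_star_mul, ← map_mul, Algebra.smul_def, ← map_mul]
  congr 1
  field_simp

theorem cq_neg (q x : Qt a b) : cq q (-x) = -cq q x := by
  rw [cq, cq, mul_neg, neg_mul, smul_neg]

theorem re_eq_zero {x : Qt a b} [NeZero (2 : F)] (h : star x = -x) : x.re = 0 := by
  have h1 := congrArg QuaternionAlgebra.re h
  simp only [QuaternionAlgebra.re_star, QuaternionAlgebra.re_neg, zero_mul, add_zero] at h1
  have h2 : (2 : F) * x.re = 0 := by linear_combination h1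
  exact (mul_eq_zero.mp h2).resolve_left (NeZero.ne 2)

theorem re_mul_comm (x y : Qt a b) : (x * y).re = (y * x).re := by
  simp only [QuaternionAlgebra.re_mul]
  ring

section conf

variable [NeZero (2 : F)] {q i1 t0 : Qt a b} {α : F} (h : Conf q i1 t0 α)

include h

omit [NeZero (2 : F)] in
theorem Conf.i1_star_mul : star i1 * i1 = algebraMap F (Qt a b) (-α) := by
  rw [h.i1s, neg_mul, h.sq, map_neg]

omit [NeZero (2 : F)] in
theorem Conf.nrd_i1 : nrd i1 = -α := by
  have e := q_star_mul i1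
  rw [h.i1s, neg_mul, h.sq, ← map_neg] at e
  exact (FaithfulSMul.algebraMap_injective F (Qt a b) e).symm

omit [NeZero (2 : F)] in
theorem Conf.nrd_i2 : nrd (cq q i1) = -α := by
  have hn : nrd (cq q i1) * nrd q = nrd i1 * nrd q := by
    rw [mul_comm, ← nrd_mul, mul_cq h.q0, nrd_mul]
  rw [← h.nrd_i1]
  exact mul_right_cancel₀ h.q0 hn

omit [NeZero (2 : F)] in
theorem Conf.i2s : star (cq q i1) = -cq q i1 := by
  rw [star_cq, h.i1s, cq_neg]

omit [NeZero (2 : F)] in
theorem Conf.i2_sq : cq q i1 * cq q i1 = algebraMap F (Qt a b) α := by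
  rw [cq_mul h.q0, h.sq, cq_algebraMap h.q0]

omit [NeZero (2 : F)] in
theorem Conf.i2_t : cq q i1 * cq q t0 = -(cq q t0 * cq q i1) := by
  rw [cq_mul h.q0, h.anti, cq_neg, cq_mul h.q0]

omit [NeZero (2 : F)] in
theorem Conf.nrd_t2 : nrd (cq q t0) = nrd t0 := by
  have hn : nrd (cq q t0) * nrd q = nrd t0 * nrd q := by
    rw [mul_comm, ← nrd_mul, mul_cq h.q0, nrd_mul]
  exact mul_right_cancel₀ h.q0 hn

omit [NeZero (2 : F)] in
theorem Conf.t2s : star (cq q t0) = -cq q t0 := by
  rw [star_cq, h.t0s, cq_neg]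

theorem Conf.re_i1 : i1.re = 0 := re_eq_zero h.i1s

theorem Conf.re_i2t : (cq q i1 * cq q t0).re = 0 := by
  have h1 := congrArg QuaternionAlgebra.re h.i2_t
  rw [QuaternionAlgebra.re_neg, re_mul_comm (cq q t0)] at h1
  have h2 : (2 : F) * (cq q i1 * cq q t0).re = 0 := by linear_combination h1
  exact (mul_eq_zero.mp h2).resolve_left (NeZero.ne 2)

/-- The first basis vector. -/
def cI (c : Fˣ) (q i1 : Qt a b) : Oct a b c := ⟨0, i1 * q⟩
/-- The second basis vector. -/
def cJ (c : Fˣ) (q i1 : Qt a b) (x : F) : Oct a b c := ⟨x • cq q i1, q⟩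
/-- The third basis vector. -/
def cL (c : Fˣ) (q t0 : Qt a b) : Oct a b c := ⟨cq q t0, 0⟩

/-- The basic triple. -/
theorem Conf.trip {x : F} (hx : (c : F) * nrd q = -(1 + α * x ^ 2)) {a' c' : Fˣ}
    (ha' : (a' : F) = -α * ((c : F) * nrd q)) (hc' : (c' : F) = -nrd t0) :
    Trip a' (-1) c' (cI c q i1) (cJ c q i1 x) (cL c q t0) := by
  have hs : ∀ (t : F) (p : Qt a b), star (t • p) = t • star p := fun t p => by ext <;> simp
  have sI : star (cI c q i1) = -cI c q i1 := by
    apply Oct.ext <;> simp [cI]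
  have sJ : star (cJ c q i1 x) = -cJ c q i1 x := by
    apply Oct.ext
    · simp only [cJ, Oct.fst_star, Oct.fst_neg]
      rw [hs, h.i2s, smul_neg]
    · simp [cJ]
  have sL : star (cL c q t0) = -cL c q t0 := by
    apply Oct.ext
    · simp only [cL, Oct.fst_star, Oct.fst_neg]
      exact h.t2s
    · simp [cL]
  have hz : nrd (0 : Qt a b) = 0 := by simp [nrd]
  have hsm : ∀ (t : F) (p : Qt a b), nrd (t • p) = t ^ 2 * nrd p := by
    intro t p
    simp only [nrd, QuaternionAlgebra.re_smul, QuaternionAlgebra.imI_smul,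
      QuaternionAlgebra.imJ_smul, QuaternionAlgebra.imK_smul, smul_eq_mul]
    ring
  refine ⟨sI, sJ, sL, ?_, ?_, ?_, ?_, ?_, ?_, ?_⟩
  · rw [mul_self_of_pure (Oct.star_eq_neg_iff.1 sI)]
    congr 1
    rw [ha', Oct.norm]
    simp only [cI]
    rw [hz, nrd_mul, h.nrd_i1]
    ring
  · rw [mul_self_of_pure (Oct.star_eq_neg_iff.1 sJ)]
    congr 1
    rw [Oct.norm]
    simp only [cJ]
    rw [hsm, h.nrd_i2, Units.val_neg, Units.val_one, hx]
    ring
  · rw [mul_self_of_pure (Oct.star_eq_neg_iff.1 sL)]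
    congr 1
    rw [hc', Oct.norm]
    simp only [cL]
    rw [hz, h.nrd_t2]
    ring
  · rw [dot, sJ]
    simp only [cI, cJ, Oct.fst_mul, Oct.fst_neg, Oct.snd_neg]
    have e : star (-q) * (i1 * q) = -(nrd q • cq q i1) := by
      rw [cq, smul_smul, mul_inv_cancel₀ h.q0, one_smul, star_neg, neg_mul, mul_assoc]
    rw [e, zero_mul, zero_add, QuaternionAlgebra.re_smul, QuaternionAlgebra.re_neg,
      QuaternionAlgebra.re_smul, re_eq_zero h.i2s]
    simp
  · rw [dot, sL]
    simp [cI, cL]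
  · rw [dot, sL]
    simp only [cJ, cL, Oct.fst_mul, Oct.fst_neg, Oct.snd_neg]
    rw [neg_zero, star_zero, zero_mul, smul_zero, add_zero, mul_neg, smul_mul_assoc,
      QuaternionAlgebra.re_neg, QuaternionAlgebra.re_smul, h.re_i2t, smul_zero, neg_zero]
  · rw [dot, sL]
    have e : star q * (i1 * q) = nrd q • cq q i1 := by
      rw [cq, smul_smul, mul_inv_cancel₀ h.q0, one_smul, mul_assoc]
    simp only [cI, cJ, cL, Oct.fst_mul, Oct.fst_neg, Oct.snd_neg]
    rw [e, neg_zero, star_zero, zero_mul, zero_mul, smul_zero, add_zero, zero_add, mul_neg,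
      smul_mul_assoc, smul_mul_assoc, QuaternionAlgebra.re_neg, QuaternionAlgebra.re_smul,
      QuaternionAlgebra.re_smul, h.re_i2t, smul_zero, smul_zero, neg_zero]

/-- The involution. -/
def Conf.inv (c : Fˣ) (hα : α ≠ 0) : AutC a b c :=
  nrm (cq q i1) i1 (by rw [h.nrd_i2]; exact neg_ne_zero.mpr hα) (by rw [h.nrd_i2, h.nrd_i1])

omit [NeZero (2 : F)] in
theorem Conf.inv_apply (hα : α ≠ 0) (z : Oct a b c) :
    (h.inv c hα).1 z = ⟨α⁻¹ • (cq q i1 * z.fst * cq q i1), α⁻¹ • (i1 * z.snd * cq q i1)⟩ := by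
  rw [Conf.inv, nrm_apply, nrmFun, h.nrd_i2, h.i2s]
  apply Oct.ext
  · simp only [mul_neg, smul_neg, inv_neg, neg_smul, neg_neg]
  · simp only [mul_neg, smul_neg, inv_neg, neg_smul, neg_neg]

omit [NeZero (2 : F)] in
theorem Conf.inv_I (hα : α ≠ 0) : (h.inv c hα).1 (cI c q i1) = cI c q i1 := by
  rw [h.inv_apply]
  apply Oct.ext
  · simp [cI]
  · simp only [cI]
    rw [← mul_assoc i1, h.sq, mul_assoc (algebraMap F (Qt a b) α), mul_cq h.q0,
      ← Algebra.smul_def, smul_smul, inv_mul_cancel₀ hα, one_smul]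

omit [NeZero (2 : F)] in
theorem Conf.inv_J (hα : α ≠ 0) (x : F) : (h.inv c hα).1 (cJ c q i1 x) = cJ c q i1 x := by
  rw [h.inv_apply]
  apply Oct.ext
  · simp only [cJ]
    rw [mul_smul_comm, smul_mul_assoc, h.i2_sq, ← Algebra.smul_def, smul_comm x, smul_smul,
      inv_mul_cancel₀ hα, one_smul]
  · simp only [cJ]
    rw [mul_assoc, mul_cq h.q0, ← mul_assoc, h.sq, ← Algebra.smul_def, smul_smul,
      inv_mul_cancel₀ hα, one_smul]

omit [NeZero (2 : F)] in
theorem Conf.inv_L (hα : α ≠ 0) : (h.inv c hα).1 (cL c q t0) = -cL c q t0 := by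
  rw [h.inv_apply]
  apply Oct.ext
  · simp only [cL, Oct.fst_neg]
    rw [h.i2_t, neg_mul, mul_assoc, h.i2_sq, ← Algebra.commutes, ← Algebra.smul_def, smul_neg,
      smul_smul, inv_mul_cancel₀ hα, one_smul]
  · simp [cL]

end conf

end alg

section main

variable {k : Type} [Field k] [NumberField k] {a b c : kˣ}

theorem exists_dfn (hdiv : Division a b c) : ∃ φ : k →+* ℝ, φ a < 0 ∧ φ b < 0 ∧ φ c < 0 := by
  by_contra hcon
  push Not at hcon
  obtain ⟨q, hq⟩ := exists_nrd (a := a) (b := b) c fun φ ha hb =>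
    lt_of_le_of_ne (hcon φ ha hb) (by
      rw [Ne, eq_comm, map_eq_zero]
      exact c.ne_zero)
  have h := hdiv ⟨q, 1⟩ (by
    have e : nrd (1 : Qt a b) = 1 := nrd_one
    rw [Oct.norm, hq, e, mul_one, sub_self])
  have h1 : (1 : Qt a b) = 0 := congrArg Oct.snd h
  have h2 : (1 : k) = 0 := by simpa using congrArg (fun x : Qt a b => x.re) h1
  exact one_ne_zero h2

theorem nrd_pos (φ : k →+* ℝ) (ha : φ a < 0) (hb : φ b < 0) {x : Qt a b} (hx : nrd x ≠ 0) :
    0 < φ (nrd x) := by
  have h0 : 0 ≤ φ (nrd x) := by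
    simp only [nrd, map_sub, map_add, map_mul, map_pow]
    have h1 := mul_nonneg (neg_nonneg.mpr ha.le) (sq_nonneg (φ x.imI))
    have h2 := mul_nonneg (neg_nonneg.mpr hb.le) (sq_nonneg (φ x.imJ))
    have h3 := mul_nonneg (mul_pos_of_neg_of_neg ha hb).le (sq_nonneg (φ x.imK))
    have h4 := sq_nonneg (φ x.re)
    nlinarith
  exact lt_of_le_of_ne h0 (by
    rw [Ne, eq_comm, map_eq_zero]
    exact hx)

theorem exists_x (α : k) : ∃ x : k, ∀ φ : k →+* ℝ,
    ((φ a < 0 ∧ φ b < 0 ∧ φ c < 0) → 0 < φ (1 + α * x ^ 2)) ∧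
    (¬ (φ a < 0 ∧ φ b < 0 ∧ φ c < 0) → φ α < 0 → φ (1 + α * x ^ 2) < 0) := by
  classical
  have hN : ∀ φ : k →+* ℝ, ∃ n : ℕ, 2 ≤ n ∧ 4 < (n : ℝ) ^ 2 * |φ α| ∨ φ α = 0 := by
    intro φ
    by_cases h0 : φ α = 0
    · exact ⟨0, Or.inr h0⟩
    · have h1 : 0 < |φ α| := abs_pos.mpr h0
      obtain ⟨n, hn⟩ := exists_nat_gt (4 / |φ α|)
      refine ⟨n + 2, Or.inl ⟨by omega, ?_⟩⟩
      rw [div_lt_iff₀ h1] at hn
      have h2 : (n : ℝ) ≤ ((n + 2 : ℕ) : ℝ) ^ 2 := by
        push_cast
        nlinarith [(Nat.cast_nonneg n : (0 : ℝ) ≤ n)]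
      nlinarith
  choose n hn using hN
  obtain ⟨x, hx⟩ := E6.real_approx (k := k)
    (fun φ => if φ a < 0 ∧ φ b < 0 ∧ φ c < 0 then 0 else (n φ : k))
    (fun φ => if φ a < 0 ∧ φ b < 0 ∧ φ c < 0 then (1 + |φ α|)⁻¹ else 1) (by
      intro φ
      split_ifs
      · positivity
      · exact one_pos)
  refine ⟨x, fun φ => ⟨fun hd => ?_, fun hd hα => ?_⟩⟩
  · have h1 := hx φ
    rw [if_pos hd, if_pos hd, map_zero, sub_zero] at h1
    have h2 : 0 < 1 + |φ α| := by positivity
    have h3 : φ x ^ 2 ≤ ((1 + |φ α|)⁻¹) ^ 2 := by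
      rw [← sq_abs]
      exact pow_le_pow_left₀ (abs_nonneg _) h1.le 2
    have h4 : |φ α| * φ x ^ 2 < 1 := by
      calc |φ α| * φ x ^ 2 ≤ |φ α| * ((1 + |φ α|)⁻¹) ^ 2 :=
            mul_le_mul_of_nonneg_left h3 (abs_nonneg _)
        _ < 1 := by
            rw [inv_pow, ← div_eq_mul_inv, div_lt_one (by positivity)]
            nlinarith [abs_nonneg (φ α)]
    rw [map_add, map_one, map_mul, map_pow]
    have h5 := neg_abs_le (φ α)
    nlinarith [sq_nonneg (φ x)]
  · have h1 := hx φ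
    rw [if_neg hd, if_neg hd, map_natCast] at h1
    rcases hn φ with ⟨h2, h3⟩ | h2
    · have h2' : (2 : ℝ) ≤ n φ := by exact_mod_cast h2
      have h4 : (n φ : ℝ) - 1 < φ x := by
        have := (abs_lt.mp h1).1
        linarith
      have h5 : (n φ : ℝ) / 2 ≤ φ x := by linarith
      have h6 : ((n φ : ℝ) / 2) ^ 2 ≤ φ x ^ 2 := pow_le_pow_left₀ (by positivity) h5 2
      rw [map_add, map_one, map_mul, map_pow]
      rw [abs_of_neg hα] at h3
      nlinarith
    · rw [h2] at hα
      exact absurd hα (lt_irrefl _)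

theorem exists_i1 (t : Qt a b) : ∃ i1 : Qt a b, i1 ≠ 0 ∧ star i1 = -i1 ∧ i1 * t = star t * i1 := by
  by_cases h : t.imI = 0 ∧ t.imJ = 0
  · refine ⟨⟨0, 1, 0, 0⟩, fun h0 => ?_, ?_, ?_⟩
    · have := congrArg QuaternionAlgebra.imI h0
      simp at this
    · ext <;> simp
    · apply QuaternionAlgebra.ext <;> simp [h.1, h.2]
  · refine ⟨⟨0, b * t.imJ, -(a * t.imI), 0⟩, fun h0 => ?_, ?_, ?_⟩
    · have h1 := congrArg QuaternionAlgebra.imI h0
      have h2 := congrArg QuaternionAlgebra.imJ h0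
      simp at h1 h2
      exact h ⟨h2, h1⟩
    · ext <;> simp
    · apply QuaternionAlgebra.ext <;>
        simp only [QuaternionAlgebra.re_mul, QuaternionAlgebra.imI_mul, QuaternionAlgebra.imJ_mul,
          QuaternionAlgebra.imK_mul, QuaternionAlgebra.re_star, QuaternionAlgebra.imI_star,
          QuaternionAlgebra.imJ_star, QuaternionAlgebra.imK_star] <;>
        ring

/-- The squares of the long elements. -/
theorem long_sq_mem (hdiv : Division a b c) (N : Subgroup (AutC a b c))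
    (hc : ∀ {a' c' : kˣ} {i j l : Oct a b c}, Trip a' (-1) c' i j l →
      (∀ φ : k →+* ℝ, ¬ (φ a < 0 ∧ φ b < 0 ∧ φ c < 0) → 0 < φ a') →
      ∀ s : AutC a b c, s.1 i = i → s.1 j = j → s.1 l = -l →
        ∀ h : AutC a b c, h * s * h⁻¹ * s⁻¹ ∈ N) (t : SL1 a b) :
    long a b c t ^ 2 ∈ N := by
  have hab : ∀ x : Qt a b, nrd x = 0 → x = 0 := by
    intro x hx
    have h := hdiv ⟨x, 0⟩ (by
      have e : nrd (0 : Qt a b) = 0 := by simp [nrd]
      rw [Oct.norm, hx, e, mul_zero, sub_zero])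
    exact congrArg Oct.fst h
  obtain ⟨τ, hτ⟩ : ∃ τ : Qt a b, τ = ((t : (Qt a b)ˣ) : Qt a b) := ⟨_, rfl⟩
  obtain ⟨i1, hi0, his, hit⟩ := exists_i1 τ
  obtain ⟨t0, ht0⟩ : ∃ t0 : Qt a b, t0 = ⟨0, τ.imI, τ.imJ, τ.imK⟩ := ⟨_, rfl⟩
  have hτ0 : τ = algebraMap k (Qt a b) τ.re + t0 := by
    change τ = ((τ.re : k) : Qt a b) + t0
    rw [ht0]
    ext <;> simp
  have ht0s : star t0 = -t0 := by
    rw [ht0]
    ext <;> simp
  by_cases h0 : t0 = 0
  · -- scalar case
    have h1 : nrd τ = 1 := by rw [hτ]; exact t.2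
    have h2 : t ^ 2 = 1 := by
      apply Subtype.ext
      apply Units.ext
      change ((t : (Qt a b)ˣ) : Qt a b) ^ 2 = 1
      rw [← hτ, hτ0, h0, add_zero, ← map_pow]
      have h3 : τ.re ^ 2 = 1 := by
        rw [hτ0, h0, add_zero] at h1
        have h4 : nrd (algebraMap k (Qt a b) τ.re) = τ.re ^ 2 := by
          change nrd ((τ.re : k) : Qt a b) = _
          simp [nrd]
        rwa [h4] at h1
      rw [h3, map_one]
    rw [← map_pow, h2, map_one]
    exact one_mem _
  obtain ⟨α, hα⟩ : ∃ α : k, α = -nrd i1 := ⟨_, rfl⟩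
  have hα0 : α ≠ 0 := by
    rw [hα]
    exact neg_ne_zero.mpr fun h => hi0 (hab _ h)
  obtain ⟨x, hx⟩ := exists_x (a := a) (b := b) (c := c) α
  have hγ0 : 1 + α * x ^ 2 ≠ 0 := by
    obtain ⟨φ, hφ⟩ := exists_dfn hdiv
    intro h
    have h1 := (hx φ).1 hφ
    rw [h, map_zero] at h1
    exact lt_irrefl _ h1
  obtain ⟨γ, hγ⟩ : ∃ γ : kˣ, (γ : k) = -(1 + α * x ^ 2) :=
    ⟨Units.mk0 _ (neg_ne_zero.mpr hγ0), rfl⟩
  obtain ⟨q, hq⟩ := exists_nrd (a := a) (b := b) (γ * c⁻¹) (by
    intro φ ha hb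
    rw [Units.val_mul, map_mul, hγ, Units.val_inv_eq_inv_val, map_inv₀, map_neg]
    by_cases hd : φ c < 0
    · have h1 := (hx φ).1 ⟨ha, hb, hd⟩
      exact mul_pos_of_neg_of_neg (by linarith) (inv_lt_zero.mpr hd)
    · have hc0 : 0 < φ c := lt_of_le_of_ne (not_lt.mp hd) (by
        rw [Ne, eq_comm, map_eq_zero]
        exact c.ne_zero)
      have h2 : φ α < 0 := by
        rw [hα, map_neg, neg_lt_zero]
        exact nrd_pos φ ha hb fun h => hi0 (hab _ h)
      have h1 := (hx φ).2 (fun h => hd h.2.2) h2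
      exact mul_pos (by linarith) (inv_pos.mpr hc0))
  have hq0 : nrd q ≠ 0 := by
    rw [hq]
    exact Units.ne_zero _
  have hC : Conf q i1 t0 α := by
    refine ⟨his, ht0s, ?_, ?_, hq0⟩
    · have e := q_mul_star i1
      rw [his, mul_neg] at e
      rw [hα, map_neg, ← e, neg_neg]
    · have e := hit
      rw [hτ0, mul_add, star_add, add_mul, ht0s, ← Algebra.commutes] at e
      have e1 : star (algebraMap k (Qt a b) τ.re) = algebraMap k (Qt a b) τ.re := by
        change star ((τ.re : k) : Qt a b) = ((τ.re : k) : Qt a b)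
        ext <;> simp
      rw [e1, neg_mul] at e
      exact add_left_cancel e
  have hx' : (c : k) * nrd q = -(1 + α * x ^ 2) := by
    rw [hq, ← hγ, Units.val_mul, Units.val_inv_eq_inv_val]
    field_simp
  obtain ⟨a', ha'⟩ : ∃ a' : kˣ, (a' : k) = -α * ((c : k) * nrd q) :=
    ⟨Units.mk0 _ (mul_ne_zero (neg_ne_zero.mpr hα0) (mul_ne_zero c.ne_zero hq0)), rfl⟩
  obtain ⟨c', hc'⟩ : ∃ c' : kˣ, (c' : k) = -nrd t0 :=
    ⟨Units.mk0 _ (neg_ne_zero.mpr fun h => h0 (hab _ h)), rfl⟩
  have hT := hC.trip (c := c) hx' ha' hc'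
  have h3 := hc hT (by
    intro φ hd
    rw [ha', hx', map_mul, map_neg, map_neg]
    rcases lt_trichotomy (φ α) 0 with h | h | h
    · have h4 := (hx φ).2 hd h
      nlinarith
    · exact absurd ((map_eq_zero φ).mp h) hα0
    · have h4 : 0 < φ (1 + α * x ^ 2) := by
        rw [map_add, map_one, map_mul, map_pow]
        nlinarith [mul_nonneg h.le (sq_nonneg (φ x))]
      nlinarith) (hC.inv c hα0) (hC.inv_I hα0) (hC.inv_J hα0 x) (hC.inv_L hα0) (long a b c t)
  have h4 : hC.inv c hα0 * long a b c t * (hC.inv c hα0)⁻¹ = (long a b c t)⁻¹ :=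
    nrm_long _ _ _ _ t (by rw [← hτ]; exact hit)
  have h5 : long a b c t ^ 2 =
      long a b c t * hC.inv c hα0 * (long a b c t)⁻¹ * (hC.inv c hα0)⁻¹ := by
    have h6 : hC.inv c hα0 * (long a b c t)⁻¹ * (hC.inv c hα0)⁻¹ = long a b c t := by
      have h7 := congrArg (fun g => g⁻¹) h4
      simp only [mul_inv_rev, inv_inv] at h7
      rw [mul_assoc]
      exact h7
    rw [mul_assoc, mul_assoc, ← mul_assoc (hC.inv c hα0), h6, sq]
  rw [h5]
  exact h3

end main

end Vale.Agent.P011.D4.IF
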