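import Vale.Agent.P011.D4.H369.Seven

/-!
A nontrivial normal subgroup of a trialitarian group meets the automorphism group of the octonion
algebra.
-/

open NumberField

namespace Vale.Agent.P011.D4.IF

open Vale.Agent.P011.MPQ Vale.Agent.P011.D4 Vale.Agent.P011.D4.Oct

variable {k E M : Type} [Field k] [NumberField k] [Field E] [NumberField E] [Field M]
  [NumberField M] [Algebra k E] [Algebra k M] [Algebra E M] [IsScalarTower k E M]
  {ρ : M ≃ₐ[k] M} {I : Set (M ≃ₐ[k] M)} {a b c : kˣ}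

/-- Row IF-7, with row IF-8 as a hypothesis. -/
theorem meets_of_nonpure
    (hnp : ∀ {a b : kˣ}, Aniso (up E a) (up E b) → ∀ x : Qt (up E a) (up E b), nrd x = 1 →
      x ≠ 1 → x ≠ -1 → ∃ z : Qt (up E a) (up E b), nrd z = 1 ∧ ∃ u : Qt a b, u.re ≠ 0 ∧
      (z * x * star z * qup E u).re = 0)
    (hU : SetU k E M ρ I) (hdiv : Division a b c)
    {e : AutC a b c →* TriU ρ I a b c} (he : IsExtU ρ I e) (N : Subgroup (TriU ρ I a b c))
    (hN : N.Normal) (hN1 : N ≠ ⊥) : ∃ h : AutC a b c, h ≠ 1 ∧ e h ∈ N :=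
  H369.exists_aut_mem hU hdiv (fun _ _ hab x hx h1 h2 => hnp (aniso_up hU.h3 hab) x hx h1 h2)
    he N hN hN1

end Vale.Agent.P011.D4.IF
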