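import Vale.Agent.P011.D4.Homs
import Vale.Agent.P011.D4.H369.Stab
import Vale.Agent.P011.D4.H369.OrbitOne

/-!
Every element of the trialitarian group is reversed, up to the stabiliser of `1`.
-/

open NumberField

namespace Vale.Agent.P011.D4.IF

open Vale.Agent.P011.MPQ Vale.Agent.P011.D4 Vale.Agent.P011.D4.Oct
section quat

variable {k E : Type} [Field k] [Field E] [Algebra k E] {a b : kˣ}

/-- Four unknowns and three equations. -/
theorem exists_u (h3 : Module.finrank k E = 3) (x : Qt (up E a) (up E b)) :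
    ∃ u : Qt a b, u ≠ 0 ∧ (x * qup E u).re = 0 := by
  have : FiniteDimensional k E := Module.finite_of_finrank_pos (by rw [h3]; norm_num)
  let f : Qt a b →ₗ[k] E :=
    { toFun := fun u => (x * qup E u).re
      map_add' := fun u v => by rw [qup_add, mul_add]; rfl
      map_smul' := fun t u => by
        rw [qup_smul, mul_smul_comm, QuaternionAlgebra.re_smul, RingHom.id_apply,
          smul_eq_mul, ← Algebra.smul_def] }
  have hf : LinearMap.ker f ≠ ⊥ := by
    apply LinearMap.ker_ne_bot_of_finrank_lt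
    rw [h3, QuaternionAlgebra.finrank_eq_four]
    norm_num
  obtain ⟨u, hu, hu0⟩ := (Submodule.ne_bot_iff _).1 hf
  exact ⟨u, hu0, hu⟩

end quat

section rel

variable {F : Type} [Field F] {a b c : Fˣ}

theorem star_of_re [NeZero (2 : F)] {z : Qt a b} (h : z.re = 0) : star z = -z := by
  ext <;> simp [h]

theorem re_comm (x y : Qt a b) : (x * y).re = (y * x).re := by
  simp
  ring

/-- The reversing relation. -/
theorem rev_rel [NeZero (2 : F)] {x y u : Qt a b} (hx : (x * u).re = 0) (hy : (y * u).re = 0) :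
    u * (x * star y) = star x * y * u := by
  have h1 : u * x = -(star x * star u) := by
    rw [← star_mul, star_of_re (by rw [re_comm]; exact hx), neg_neg]
  have h2 : y * u = -(star u * star y) := by
    rw [← star_mul, star_of_re hy, neg_neg]
  rw [← mul_assoc, h1, mul_assoc (star x) y, h2, neg_mul, mul_neg, mul_assoc]

section conj

variable {U V : Qt a b} (hUV : U * V = 1) (hVU : V * U = 1)

include hUV in
theorem conj_star_mul (s q : Qt a b) : star (U * s * V) * (U * q * V) = U * (star s * q) * V := by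
  have hs1 : star V * star U = 1 := by rw [← star_mul, hUV, star_one]
  have h : star V * (star U * U) = U := by rw [← mul_assoc, hs1, one_mul]
  have h' : (nrd U) • star V = U := by
    rw [star_mul_self', mul_smul_comm, mul_one] at h
    exact h
  calc star (U * s * V) * (U * q * V) = star V * star s * (star U * U) * q * V := by
        simp only [star_mul, mul_assoc]
    _ = ((nrd U) • star V) * star s * q * V := by
        rw [star_mul_self']
        simp only [mul_smul_comm, smul_mul_assoc, mul_one]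
    _ = _ := by
        rw [h']
        simp only [mul_assoc]

include hUV in
theorem conj_mul_star (q r : Qt a b) : (U * q * V) * star (U * r * V) = U * (q * star r) * V := by
  have hs1 : star V * star U = 1 := by rw [← star_mul, hUV, star_one]
  have h : V * star V * star U = V := by rw [mul_assoc, hs1, mul_one]
  have h' : (nrd V) • star U = V := by
    rw [mul_star_self', smul_mul_assoc, one_mul] at h
    exact h
  calc (U * q * V) * star (U * r * V) = U * q * (V * star V) * star r * star U := by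
        simp only [star_mul, mul_assoc]
    _ = U * q * star r * ((nrd V) • star U) := by
        rw [mul_star_self']
        simp only [mul_smul_comm, smul_mul_assoc, mul_one]
    _ = _ := by
        rw [h']
        simp only [mul_assoc]

include hVU in
theorem conj_mul (x y : Qt a b) : (U * x * V) * (U * y * V) = U * (x * y) * V := by
  calc (U * x * V) * (U * y * V) = U * x * (V * U) * y * V := by simp only [mul_assoc]
    _ = _ := by
        rw [hVU, mul_one]
        simp only [mul_assoc]

/-- The underlying map of the conjugation. -/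
def conjF (U V : Qt a b) (x : Oct a b c) : Oct a b c := ⟨U * x.fst * V, U * x.snd * V⟩

include hUV hVU in
theorem conjF_mul (x y : Oct a b c) : conjF U V (x * y) = conjF U V x * conjF U V y := by
  apply Oct.ext
  · change U * (x.fst * y.fst + (c : F) • (star y.snd * x.snd)) * V =
      (U * x.fst * V) * (U * y.fst * V) + (c : F) • (star (U * y.snd * V) * (U * x.snd * V))
    rw [conj_star_mul hUV, conj_mul hVU, mul_add, add_mul, mul_smul_comm, smul_mul_assoc]
  · change U * (y.snd * x.fst + x.snd * star y.fst) * V =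
      (U * y.snd * V) * (U * x.fst * V) + (U * x.snd * V) * star (U * y.fst * V)
    rw [conj_mul_star hUV, conj_mul hVU, mul_add, add_mul]

include hVU in
theorem conjF_conjF (x : Oct a b c) : conjF V U (conjF U V x) = x := by
  apply Oct.ext
  · change V * (U * x.fst * V) * U = x.fst
    calc V * (U * x.fst * V) * U = (V * U) * x.fst * (V * U) := by simp only [mul_assoc]
      _ = _ := by rw [hVU, one_mul, mul_one]
  · change V * (U * x.snd * V) * U = x.snd
    calc V * (U * x.snd * V) * U = (V * U) * x.snd * (V * U) := by simp only [mul_assoc]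
      _ = _ := by rw [hVU, one_mul, mul_one]

theorem conjF_add (x y : Oct a b c) : conjF U V (x + y) = conjF U V x + conjF U V y := by
  apply Oct.ext
  · change U * (x.fst + y.fst) * V = U * x.fst * V + U * y.fst * V
    rw [mul_add, add_mul]
  · change U * (x.snd + y.snd) * V = U * x.snd * V + U * y.snd * V
    rw [mul_add, add_mul]

theorem conjF_smul (t : F) (x : Oct a b c) : conjF U V (t • x) = t • conjF U V x := by
  apply Oct.ext
  · change U * (t • x.fst) * V = t • (U * x.fst * V)
    rw [mul_smul_comm, smul_mul_assoc]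
  · change U * (t • x.snd) * V = t • (U * x.snd * V)
    rw [mul_smul_comm, smul_mul_assoc]

/-- Conjugation by a quaternion, as a linear map. -/
def conjL (c : Fˣ) (U V : Qt a b) (hUV : U * V = 1) (hVU : V * U = 1) :
    Oct a b c ≃ₗ[F] Oct a b c where
  toFun := conjF U V
  invFun := conjF V U
  left_inv := conjF_conjF hVU
  right_inv := conjF_conjF hUV
  map_add' := conjF_add
  map_smul' := conjF_smul

/-- Conjugation by a quaternion, as an automorphism of the octonion algebra. -/
def conjQ (c : Fˣ) (U V : Qt a b) (hUV : U * V = 1) (hVU : V * U = 1) : AutC a b c :=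
  ⟨conjL c U V hUV hVU, conjF_mul hUV hVU⟩

end conj

end rel

section grp

variable {k E M : Type} [Field k] [NumberField k] [Field E] [Field M] [Algebra k E] [Algebra k M]
  [Algebra E M] [IsScalarTower k E M] {ρ : M ≃ₐ[k] M} {I : Set (M ≃ₐ[k] M)} {a b c : kˣ}

omit [NumberField k] [Field E] [Algebra k E] [Algebra E M] [IsScalarTower k E M] in
theorem ext_conj {e : AutC a b c →* TriU ρ I a b c} (he : IsExtU ρ I e) {U V : Qt a b}
    (hUV : U * V = 1) (hVU : V * U = 1) (y : OctL M a b c) :
    (e (conjQ c U V hUV hVU)).1 y = conjF (qup M U) (qup M V) y := by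
  have h1 : qup M U * qup M V = 1 := by rw [← qup_mul, hUV, qup_one]
  have h2 : qup M V * qup M U = 1 := by rw [← qup_mul, hVU, qup_one]
  have h3 : (e (conjQ c U V hUV hVU)).1 = conjL (up M c) (qup M U) (qup M V) h1 h2 := by
    apply H24.equiv_unique
    intro x
    rw [he]
    apply Oct.ext
    · change qup M (U * x.fst * V) = qup M U * qup M x.fst * qup M V
      rw [qup_mul, qup_mul]
    · change qup M (U * x.snd * V) = qup M U * qup M x.snd * qup M V
      rw [qup_mul, qup_mul]
  rw [h3]
  rfl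

omit [NumberField k] in
theorem qEM_qup (u : Qt a b) : qEM M (qup E u : Qt (up E a) (up E b)) = qup M u := by
  ext <;> simp [qEM, qup, ← IsScalarTower.algebraMap_apply]

theorem coe_inv_SL1 {F : Type} [Field F] {a b : Fˣ} (x : SL1 a b) :
    (((x⁻¹ : SL1 a b) : (Qt a b)ˣ) : Qt a b) = star ((x : (Qt a b)ˣ) : Qt a b) := by
  have h : ((x : (Qt a b)ˣ) : Qt a b) * star ((x : (Qt a b)ˣ) : Qt a b) = 1 := by
    have h1 : nrd ((x : (Qt a b)ˣ) : Qt a b) = 1 := x.2
    rw [mul_star_self', h1, one_smul]
  exact Units.inv_eq_of_mul_eq_one_right h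

/-- The elements of the short subgroup are reversed. -/
theorem rev_short (hU : SetU k E M ρ I) (hab : Aniso a b) {e : AutC a b c →* TriU ρ I a b c}
    (he : IsExtU ρ I e) {s : SL1 (up E a) (up E b) →* TriU ρ I a b c} (hs : IsShortU ρ I s)
    (x : SL1 (up E a) (up E b)) : ∃ φ : AutC a b c, (e φ * s x).1 1 = (s x)⁻¹.1 1 := by
  have : CharZero M := charZero_of_injective_algebraMap (algebraMap k M).injective
  obtain ⟨u, hu0, hu⟩ := exists_u hU.h3 ((x : (Qt (up E a) (up E b))ˣ) : Qt (up E a) (up E b))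
  have hn : nrd u ≠ 0 := fun h => hu0 (hab u h)
  have hUV : u * ((nrd u)⁻¹ • star u) = 1 := by
    rw [mul_smul_comm, mul_star_self', smul_smul, inv_mul_cancel₀ hn, one_smul]
  have hVU : ((nrd u)⁻¹ • star u) * u = 1 := by
    rw [smul_mul_assoc, star_mul_self', smul_smul, inv_mul_cancel₀ hn, one_smul]
  refine ⟨conjQ c u _ hUV hVU, ?_⟩
  set X : Qt (up M a) (up M b) :=
    qEM M ((x : (Qt (up E a) (up E b))ˣ) : Qt (up E a) (up E b)) with hX
  have hXu : (X * qup M u).re = 0 := by
    rw [hX, ← qEM_qup (E := E), ← qEM_mul]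
    change algebraMap E M _ = 0
    rw [hu, map_zero]
  have hYu : (qmap ρ (qmap ρ X) * qup M u).re = 0 := by
    have h1 : qmap ρ (qmap ρ X) * qup M u = qmap ρ (qmap ρ (X * qup M u)) := by
      rw [qmap_mul, qmap_mul, qmap_qup, qmap_qup]
    rw [h1]
    change ρ (ρ (X * qup M u).re) = 0
    rw [hXu, map_zero, map_zero]
  have h1 : qup M u * qup M ((nrd u)⁻¹ • star u) = 1 := by rw [← qup_mul, hUV, qup_one]
  have hrel := rev_rel hXu hYu
  change (e (conjQ c u _ hUV hVU)).1 ((s x).1 1) = (s x)⁻¹.1 1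
  rw [← map_inv s x, hs, hs, coe_inv_SL1, qEM_star, ext_conj he, ← hX]
  apply Oct.ext
  · change qup M u * (X * 1 * star (qmap ρ (qmap ρ X))) * qup M ((nrd u)⁻¹ • star u) =
      star X * 1 * star (qmap ρ (qmap ρ (star X)))
    rw [mul_one, mul_one, hrel, mul_assoc, h1, mul_one, qmap_star, qmap_star, star_star]
  · change qup M u * (0 * star (qmap ρ X)) * qup M ((nrd u)⁻¹ • star u) =
      0 * star (qmap ρ (star X))
    simp only [zero_mul, mul_zero]

/-- Every element is reversed, up to the stabiliser of `1`. -/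
theorem rev (hU : SetU k E M ρ I) (hdiv : Division a b c) {e : AutC a b c →* TriU ρ I a b c}
    (he : IsExtU ρ I e) (g : TriU ρ I a b c) :
    ∃ h : AutC a b c, (e h * g).1 1 = g⁻¹.1 1 := by
  have h2 : (2 : k) ≠ 0 := two_ne_zero
  obtain ⟨a', b', c', i, j, l, ht, x, hx⟩ := H369.orbit_one hU hdiv g
  obtain ⟨hab', -, -, hdiv'⟩ := aniso_of_trip hdiv ht
  obtain ⟨C, hC, hCb⟩ := H24.exists_conj ρ I h2 ht
  obtain ⟨s', hs'⟩ := H24.exists_short hU a' b' c'
  obtain ⟨e', he'⟩ := H24.exists_ext (M := M) ρ I a' b' c'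
  obtain ⟨φ, hφ⟩ := rev_short hU hab' he' hs' x
  have hone : Oct.emb (oup M i) (oup M j) (oup M l) (1 : OctL M a' b' c') = 1 := by
    simp [Oct.emb, Oct.qemb]
  have hC1 : ∀ g' : TriU ρ I a' b' c', (C g').1 1 =
      Oct.emb (oup M i) (oup M j) (oup M l) (g'.1 1) := fun g' => by
    rw [← hC, hone]
  have h1 : (C (s' x)).1 1 = g.1 1 := by
    rw [hx, hC1, hs']
  have mul1 : ∀ g₁ g₂ : TriU ρ I a b c, (g₁ * g₂).1 1 = g₁.1 (g₂.1 1) := fun _ _ => rfl
  have h3 : ((C (s' x))⁻¹ * g).1 1 = 1 := by
    rw [mul1, ← h1, ← mul1, inv_mul_cancel]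
    rfl
  obtain ⟨h0, hh0⟩ := H369.stab_one hU he _ h3
  have h4 : (C (e' φ)).1 1 = 1 := by
    have h5 : (e' φ).1 (1 : OctL M a' b' c') = 1 := by
      have h6 := he' φ (1 : Oct a' b' c')
      have h7 : oup M (1 : Oct a' b' c') = 1 := by
        apply Oct.ext
        · exact qup_one
        · exact qup_zero
      have h8 : φ.1 (1 : Oct a' b' c') = 1 := aut_one φ
      rw [h7, h8, h7] at h6
      exact h6
    rw [hC1, h5, hone]
  obtain ⟨h9, hh9⟩ := H369.stab_one hU he _ h4
  refine ⟨h0⁻¹ * h9, ?_⟩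
  have hg : g = C (s' x) * e h0 := by rw [hh0, mul_inv_cancel_left]
  have h10 : (e h0).1 1 = 1 := by rw [hh0]; exact h3
  have h11 : (C (e' φ) * C (s' x)).1 1 = (C (s' x))⁻¹.1 1 := by
    rw [← map_mul, ← map_inv, hC1, hC1, hφ]
  rw [map_mul, hh9, map_inv]
  have h12 : ((e h0)⁻¹ * C (e' φ) * g).1 1 = (e h0)⁻¹.1 ((C (e' φ) * C (s' x)).1 1) := by
    conv_lhs => rw [hg]
    rw [← mul_assoc, mul1, h10, mul_assoc, mul1]
  rw [h12, h11, ← mul1]
  conv_rhs => rw [hg]
  rw [mul_inv_rev]

/-- If a normal subgroup contains the stabiliser of `1`, it contains all squares. -/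
theorem sq_mem (hU : SetU k E M ρ I) (hdiv : Division a b c) {e : AutC a b c →* TriU ρ I a b c}
    (he : IsExtU ρ I e) (N : Subgroup (TriU ρ I a b c)) (hN : N.Normal)
    (h : ∀ φ : AutC a b c, e φ ∈ N) (g : TriU ρ I a b c) : g ^ 2 ∈ N := by
  obtain ⟨φ, hφ⟩ := rev hU hdiv he g
  have mul1 : ∀ g₁ g₂ : TriU ρ I a b c, (g₁ * g₂).1 1 = g₁.1 (g₂.1 1) := fun _ _ => rfl
  have h1 : (g * (e φ * g)).1 1 = 1 := by
    rw [mul1, hφ, ← mul1, mul_inv_cancel]
    rfl
  obtain ⟨ψ, hψ⟩ := H369.stab_one hU he _ h1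
  have h2 : g * (e φ * g) ∈ N := by rw [← hψ]; exact h ψ
  have h3 : g * (e φ)⁻¹ * g⁻¹ ∈ N := hN.conj_mem _ (inv_mem (h φ)) g
  have h4 : g ^ 2 = g * (e φ)⁻¹ * g⁻¹ * (g * (e φ * g)) := by
    rw [pow_two]
    group
  rw [h4]
  exact mul_mem h3 h2

end grp

end Vale.Agent.P011.D4.IF
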