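import Vale.Agent.P011.D4.G2

/-!
Subgroups containing squares: no finiteness of the index is needed.
-/

open NumberField IsDedekindDomain Topology

namespace Vale.Agent.P011.D4.IF

open Vale.Agent.P011.MPQ Vale.Agent.P011.Arith Vale.Agent.P011.D4.Oct

open scoped Vale.Agent.P011.D4.B

section grp

variable {G : Type*} [Group G]

/-- A subgroup containing the squares is normal. -/
theorem normal_of_sq (N : Subgroup G) (hsq : ∀ g : G, g ^ 2 ∈ N) : N.Normal := by
  refine ⟨fun n hn g => ?_⟩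
  have e : g * n * g⁻¹ = (g * n) ^ 2 * (n⁻¹ * (g⁻¹ ^ 2)) := by
    rw [pow_two, pow_two]
    group
  rw [e]
  exact N.mul_mem (hsq _) (N.mul_mem (N.inv_mem hn) (hsq _))

/-- A subgroup containing the squares is an intersection of subgroups of index two. -/
theorem exists_index_two (N : Subgroup G) (hsq : ∀ g : G, g ^ 2 ∈ N) {x : G} (hx : x ∉ N) :
    ∃ H : Subgroup G, N ≤ H ∧ x ∉ H ∧ H.index = 2 := by
  obtain ⟨H, hNH, hH⟩ := zorn_le_nonempty₀ {H : Subgroup G | N ≤ H ∧ x ∉ H} (by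
    intro c hc hchain y hy
    refine ⟨sSup c, ⟨(hc hy).1.trans (le_sSup hy), ?_⟩, fun z hz => le_sSup hz⟩
    intro hxc
    obtain ⟨K, hK, hxK⟩ := (Subgroup.mem_sSup_of_directedOn ⟨y, hy⟩ hchain.directedOn).mp hxc
    exact (hc hK).2 hxK) N ⟨le_rfl, hx⟩
  have hHx : x ∉ H := hH.prop.2
  have hsqH : ∀ g : G, g ^ 2 ∈ H := fun g => hNH (hsq g)
  have hHn := normal_of_sq H hsqH
  refine ⟨H, hNH, hHx, ?_⟩
  -- every element outside `H` lies in `x H`
  have key : ∀ y : G, y ∉ H → x⁻¹ * y ∈ H := by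
    intro y hy
    have hlt : ¬ (H ⊔ Subgroup.zpowers y ≤ H) := fun h =>
      hy (h (le_sup_right (a := H) (Subgroup.mem_zpowers y)))
    have hxm : x ∈ H ⊔ Subgroup.zpowers y := by
      by_contra hcon
      exact hlt (hH.le_of_ge ⟨hNH.trans le_sup_left, hcon⟩ le_sup_left)
    rw [Subgroup.mem_sup_of_normal_left] at hxm
    obtain ⟨h, hh, z, hz, rfl⟩ := hxm
    obtain ⟨n, rfl⟩ := Subgroup.mem_zpowers_iff.mp hz
    rcases Int.even_or_odd' n with ⟨m, rfl | rfl⟩
    · exfalso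
      apply hHx
      refine H.mul_mem hh ?_
      rw [zpow_mul, zpow_ofNat]
      exact H.zpow_mem (hsqH _) m
    · have e : (h * y ^ (2 * m + 1))⁻¹ * y = y⁻¹ * ((y ^ 2) ^ m)⁻¹ * h⁻¹ * y := by
        rw [zpow_add, zpow_one, zpow_mul, zpow_ofNat, mul_inv_rev, mul_inv_rev]
      rw [e]
      have e2 : y⁻¹ * ((y ^ 2) ^ m)⁻¹ * h⁻¹ * y = y⁻¹ * (((y ^ 2) ^ m)⁻¹ * h⁻¹) * y⁻¹⁻¹ := by
        rw [inv_inv]
        simp only [mul_assoc]
      rw [e2]
      exact hHn.conj_mem _ (H.mul_mem (H.inv_mem (H.zpow_mem (hsqH _) m)) (H.inv_mem hh)) _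
  rw [Subgroup.index_eq_two_iff]
  refine ⟨x, fun b => ?_⟩
  by_cases hb : b ∈ H
  · right
    refine ⟨hb, fun h => hHx ?_⟩
    have := H.mul_mem (H.inv_mem hb) h
    rwa [inv_mul_cancel_left] at this
  · left
    refine ⟨?_, hb⟩
    have h1 := key b hb
    have h2 : b * x = b ^ 2 * (b⁻¹ * x) := by
      rw [pow_two]
      group
    rw [h2]
    refine H.mul_mem (hsqH _) ?_
    have h3 := H.inv_mem h1
    rwa [mul_inv_rev, inv_inv] at h3

end grp

variable {k : Type} [Field k] [NumberField k] {a b c : kˣ}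

/-- Elements of norm one close to one lie in every subgroup containing the squares. -/
theorem sl_near2 (hab : Aniso a b) (N : Subgroup (SL1 a b)) (hsq : ∀ g : SL1 a b, g ^ 2 ∈ N)
    (g : SL1 a b) (hg : ∀ w : HeightOneSpectrum (𝓞 k), Ram a b w →
      w.valuation k (2 - 2 * ((g : (Qt a b)ˣ) : Qt a b).re) <
        w.valuation k (4 * ((2 : ℕ) : k) ^ 4)) : g ∈ N := by
  by_contra hcon
  obtain ⟨H, hNH, hgH, hH⟩ := exists_index_two N hsq hcon
  have hsqH : ∀ g : SL1 a b, g ^ 2 ∈ H := fun g => hNH (hsq g)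
  exact hgH (sl_near hab two_pos H (normal_of_sq H hsqH) (by rw [hH]; norm_num) hsqH g hg)

/-- The hypothesis that a subgroup contains the automorphisms which fix a quaternion subalgebra
and are close to one. -/
def NearIn (N : Subgroup (AutC a b c)) (e : ℕ) : Prop :=
  ∀ (a' b' c' : kˣ) (z u m : Oct a b c), Trip a' b' c' z u m → ∀ φ : AutC a b c, φ.1 z = z →
    φ.1 u = u → (∀ w : HeightOneSpectrum (𝓞 k), Ram a' b' w →
      w.valuation k (norm (φ.1 m - m) / norm m) < w.valuation k (4 * (e : k) ^ 4)) → φ ∈ N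

/-- The long subgroup lies in every such subgroup. -/
theorem long_all (hdiv : Division a b c) {c1 : kˣ}
    (hc1 : (c1 : k) = ((((b : k) + 1) / 2) ^ 2 - c * (((b : k) - 1) / 2) ^ 2) * b)
    (hram : ∀ w : HeightOneSpectrum (𝓞 k), Ram a b w → ¬ Ram a c w ∧ ¬ Ram a c1 w)
    (N : Subgroup (AutC a b c)) {e : ℕ} (he : 0 < e)
    (hnear : NearIn N e) (t : SL1 a b) : long a b c t ∈ N := by
  classical
  have h2 : (2 : k) ≠ 0 := two_ne_zero
  have hab := hdiv.aniso
  have hr : (4 : k) * (e : k) ^ 4 ≠ 0 :=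
    mul_ne_zero (by norm_num) (pow_ne_zero _ (Nat.cast_ne_zero.mpr he.ne'))
  obtain ⟨T, hT⟩ : ∃ T, T = {w : HeightOneSpectrum (𝓞 k) | Ram a c w ∨ Ram a c1 w} := ⟨_, rfl⟩
  have hTf : T.Finite := by
    rw [hT]
    exact (ram_finite a c).union (ram_finite a c1)
  obtain ⟨S, hSd⟩ : ∃ S : Set (Pl k), S = SP T := ⟨_, rfl⟩
  have hS : S.Finite := by
    rw [hSd]
    exact (hTf.image _).union (Set.finite_range _)
  have hTS : ∀ w ∈ T, (Sum.inl w : Pl k) ∈ S := fun w hw => by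
    rw [hSd]
    exact inl_mem_SP.mpr hw
  have hrS : ∀ φ : k →+* ℝ, (Sum.inr φ : Pl k) ∈ S := fun φ => by
    rw [hSd]
    exact inr_mem_SP
  obtain ⟨φ0, -⟩ := G2.exists_real hdiv
  -- the vector `j1`
  obtain ⟨j1, hj1⟩ : ∃ j1 : Oct a b c, j1 = ⟨⟨0, 0, ((b : k) + 1) / 2, 0⟩,
    ⟨0, 0, ((b : k) - 1) / 2, 0⟩⟩ := ⟨_, rfl⟩
  have hnj : norm j1 = -(c1 : k) := by
    rw [hj1, hc1]
    simp only [Oct.norm, nrd]
    ring
  have hni : norm (gi : Oct a b c) = -(a : k) := by
    simp [Oct.norm, gi, nrd]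
  have hsi : star (gi : Oct a b c) = -gi := trip_std.si
  have hpair : B.Pair (gi : Oct a b c) j1 := by
    refine ⟨hsi, ?_, ?_, ?_, ?_⟩
    · rw [hj1]
      apply ext8 <;> simp
    · rw [hni]
      exact neg_ne_zero.mpr a.ne_zero
    · rw [hnj]
      exact neg_ne_zero.mpr c1.ne_zero
    · rw [hj1]
      simp [dot, gi]
  have hperp : B.Perp (gi : Oct a b c) j1 gl := by
    rw [hj1]
    refine ⟨?_, ?_, ?_, ?_⟩ <;> simp [dot, gi, gl]
  -- the element `κ`
  have ha : ∀ x : k, x ^ 2 ≠ a := by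
    intro x hx
    have h := hab ⟨x, 1, 0, 0⟩ (by simp only [nrd]; linear_combination hx)
    have h3 : (1 : k) = 0 := congrArg QuaternionAlgebra.imI h
    exact one_ne_zero h3
  obtain ⟨x, y, hxy, hy0, hκ⟩ := exists_kappa ha hTf he
  have hx1 : x ≠ 1 := by
    rintro rfl
    have h3 : (a : k) * y ^ 2 = 0 := by linear_combination -hxy
    rcases mul_eq_zero.mp h3 with h4 | h4
    · exact a.ne_zero h4
    · exact hy0 (pow_eq_zero_iff two_ne_zero |>.mp h4)
  obtain ⟨V, hV⟩ : ∃ V : Set k, V = {x | ∀ w ∈ T, w.valuation k x < w.valuation k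
    (4 * (e : k) ^ 4)} := ⟨_, rfl⟩
  have hV0 : (0 : k) ∈ V := by
    rw [hV]
    intro w _
    rw [map_zero]
    exact zero_lt_iff.mpr ((Valuation.ne_zero_iff _).mpr hr)
  have hL1 : B.HasL N V a c1 := fun c' z u m ht g hz hu hg => by
    rw [hV] at hg
    exact hnear _ _ _ z u m ht g hz hu fun w hw => hg w (by rw [hT]; exact Or.inr hw)
  have hL2 : B.HasL N V a c := fun c' z u m ht g hz hu hg => by
    rw [hV] at hg
    exact hnear _ _ _ z u m ht g hz hu fun w hw => hg w (by rw [hT]; exact Or.inl hw)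
  -- elements close to one
  obtain ⟨ε1, hε1, hnear1⟩ : ∃ ε : ℝ, 0 < ε ∧ ∀ t : SL1 a b,
      (∀ p ∈ S, QIn {y | plAbv p y < ε} (((t : (Qt a b)ˣ) : Qt a b) - 1)) →
        long a b c t ∈ N := by
    let _ := topS S
    have _ : IsTopologicalRing k := topS_ring
    have _ : ContinuousInv₀ k := topS_inv
    have _ : T1Space k := G2.topS_t1 hS ⟨_, hrS φ0⟩
    have hVo : IsOpen V := by
      rw [hV]
      exact G2.isOpen_small hS hTS hr
    obtain ⟨A, hA, h⟩ := B.near_step h2 (nt hS hrS) hdiv N hpair hnj hperp hVo hV0 hL1 hL2 hxy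
      (by rw [hV]; exact hκ) hx1
    obtain ⟨ε, hε, h3⟩ := G2.exists_eps hS hA
    exact ⟨ε, hε, fun t ht => h t (h3 _ ht)⟩
  obtain ⟨ε2, hε2, hsmall⟩ := G2.nrd_small (a := a) (b := b) (ram_finite a b) hr
  -- weak approximation
  obtain ⟨s, hs⟩ := wa_SL1 (S := S ∪ Sum.inl '' {w | Ram a b w})
    (hS.union ((ram_finite a b).image _)) hab (fun p => if p ∈ S then 1 else t)
    (lt_min hε1 hε2)
  have hsN : long a b c s ∈ N := by
    refine hnear1 s fun p hp => ?_
    have h := hs p (Or.inl hp)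
    rw [if_pos hp] at h
    have h1 : ∀ y, plAbv p y < min ε1 ε2 → plAbv p y < ε1 := fun y hy =>
      hy.trans_le (min_le_left _ _)
    exact ⟨h1 _ h.1, h1 _ h.2.1, h1 _ h.2.2.1, h1 _ h.2.2.2⟩
  have hst : long a b c (s⁻¹ * t) ∈ N := by
    have hfix : ∀ (q : Qt a b), (long a b c (s⁻¹ * t)).1 (⟨q, 0⟩ : Oct a b c) = ⟨q, 0⟩ := by
      intro q
      ext1
      · rfl
      · change _ * (0 : Qt a b) = 0
        exact mul_zero _
    refine hnear a b c gi gj gl trip_std _ (hfix _) (hfix _) fun w hw => ?_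
    have hwS : (Sum.inl w : Pl k) ∉ S := by
      rw [hSd, inl_mem_SP, hT]
      rintro (h | h)
      · exact (hram w hw).1 h
      · exact (hram w hw).2 h
    have h := hs (Sum.inl w) (Or.inr ⟨w, hw, rfl⟩)
    rw [if_neg hwS] at h
    have h1 : ∀ y, plAbv (Sum.inl w) y < min ε1 ε2 → plAbv (Sum.inl w) y < ε2 := fun y hy =>
      hy.trans_le (min_le_right _ _)
    have h3 := hsmall w hw _ ⟨h1 _ h.1, h1 _ h.2.1, h1 _ h.2.2.1, h1 _ h.2.2.2⟩
    have hs1 : nrd ((s : (Qt a b)ˣ) : Qt a b) = 1 := s.2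
    have ht1 : nrd ((t : (Qt a b)ˣ) : Qt a b) = 1 := t.2
    have hinv : (((s⁻¹ : SL1 a b) : (Qt a b)ˣ) : Qt a b) = star ((s : (Qt a b)ˣ) : Qt a b) := by
      change ((s : (Qt a b)ˣ)⁻¹ : (Qt a b)ˣ).1 = _
      apply Units.inv_eq_of_mul_eq_one_right
      apply QuaternionAlgebra.ext <;> simp [← hs1, nrd] <;> ring
    have e1 : 2 - 2 * (((s⁻¹ * t : SL1 a b) : (Qt a b)ˣ) : Qt a b).re =
        nrd (((s : (Qt a b)ˣ) : Qt a b) - ((t : (Qt a b)ˣ) : Qt a b)) := by
      have e2 : (((s⁻¹ * t : SL1 a b) : (Qt a b)ˣ) : Qt a b) =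
          star ((s : (Qt a b)ˣ) : Qt a b) * ((t : (Qt a b)ˣ) : Qt a b) := by
        rw [← hinv]
        rfl
      rw [e2]
      simp only [nrd] at hs1 ht1 ⊢
      simp
      linear_combination -hs1 - ht1
    have hc0 : (c : k) ≠ 0 := c.ne_zero
    rw [norm_long_sub, norm_gl, mul_div_cancel_right₀ _ (neg_ne_zero.mpr hc0), e1]
    exact h3
  have h5 : long a b c (s * (s⁻¹ * t)) ∈ N := by
    rw [map_mul]
    exact mul_mem hsN hst
  rwa [mul_inv_cancel_left] at h5

/-- A subgroup which contains the automorphisms fixing a quaternion subalgebra and close to one at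
its ramified places is everything. -/
theorem top_of_near (hdiv : Division a b c) (N : Subgroup (AutC a b c)) {e : ℕ} (he : 0 < e)
    (hnear : NearIn N e) : N = ⊤ := by
  apply top_of_fix hdiv
  intro i j hsi hi0 hsj hj0 hij g hgi hgj
  -- the third vector
  obtain ⟨l0, hl00, hl0⟩ := exists_perp (![1, i, j, i * j, 0, 0, 0] : Fin 7 → Oct a b c)
  have p1 : dot l0 1 = 0 := hl0 0
  have p2 : dot l0 i = 0 := hl0 1
  have p3 : dot l0 j = 0 := hl0 2
  have p4 : dot l0 (i * j) = 0 := hl0 3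
  obtain ⟨a', b', c0, ht0⟩ := exists_trip hdiv hsi hi0 hsj hj0 (star_iff_dot.mpr p1) hl00 hij
    (by rw [dot_comm, p2]) (by rw [dot_comm, p3]) (by rw [dot_comm, p4])
  have hdiv0 := (aniso_of_trip hdiv ht0).2.2.2
  obtain ⟨q, c', c1, hc', hc1, hram⟩ := exists_third hdiv0
  have ht3 := ht0.triple
  have hperp : Perp i j (qemb i j q * l0) := (ht0.perp_iff _).mpr ⟨q, rfl⟩
  have hnorm : norm (qemb i j q * l0) = -(c' : k) := by
    rw [ht3.toBasic.norm_mul_l, ht3.norm_l, hc']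
    ring
  have ht : Trip a' b' c' i j (qemb i j q * l0) :=
    Triple.trip ⟨ht3.toBasic, hperp, hnorm⟩
  have hdiv' := (aniso_of_trip hdiv ht).2.2.2
  -- transport
  obtain ⟨Φ, hΦ, hm, hst, hnm⟩ := exists_emb ht
  have ei : Φ gi = i := by
    rw [hΦ]
    simp [Oct.emb, qemb, gi]
  have ej : Φ gj = j := by
    rw [hΦ]
    simp [Oct.emb, qemb, gj]
  have hs : ∀ x y, Φ.symm (x * y) = Φ.symm x * Φ.symm y := by
    intro x y
    apply Φ.injective
    rw [hm, Φ.apply_symm_apply, Φ.apply_symm_apply, Φ.apply_symm_apply]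
  have hback : ∀ g : AutC a b c, conjA Φ hm (conjA Φ.symm hs g) = g := by
    intro g
    apply Subtype.ext
    apply LinearEquiv.ext
    intro x
    change Φ (Φ.symm (g.1 (Φ.symm.symm (Φ.symm x)))) = g.1 x
    rw [Φ.apply_symm_apply, LinearEquiv.symm_symm, Φ.apply_symm_apply]
  obtain ⟨t, ht'⟩ := exists_long (conjA Φ.symm hs g) (by
      change Φ.symm (g.1 (Φ.symm.symm gi)) = gi
      rw [LinearEquiv.symm_symm, ei, hgi, ← ei, Φ.symm_apply_apply])
    (by
      change Φ.symm (g.1 (Φ.symm.symm gj)) = gj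
      rw [LinearEquiv.symm_symm, ej, hgj, ← ej, Φ.symm_apply_apply])
  have h := long_all hdiv' hc1 hram (N.comap (conjA Φ hm)) he
    (fun a'' b'' c'' z u m htr φ hz hu hv => by
      refine hnear _ _ _ (Φ z) (Φ u) (Φ m) (trip_map htr hm) _ ?_ ?_ fun w hw => ?_
      · change Φ (φ.1 (Φ.symm (Φ z))) = Φ z
        rw [Φ.symm_apply_apply, hz]
      · change Φ (φ.1 (Φ.symm (Φ u))) = Φ u
        rw [Φ.symm_apply_apply, hu]
      · have e1 : norm ((conjA Φ hm φ).1 (Φ m) - Φ m) = norm (φ.1 m - m) := by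
          change norm (Φ (φ.1 (Φ.symm (Φ m))) - Φ m) = _
          rw [Φ.symm_apply_apply, ← map_sub, hnm]
        rw [e1, hnm]
        exact hv w hw) t
  change conjA Φ hm (long a' b' c' t) ∈ N at h
  rwa [ht', hback] at h

/-- A subgroup which contains the squares of all automorphisms fixing a quaternion subalgebra is
everything. -/
theorem top_of_sq (hdiv : Division a b c) (N : Subgroup (AutC a b c))
    (hsq : ∀ i j : Oct a b c, star i = -i → i ≠ 0 → star j = -j → j ≠ 0 → dot i j = 0 →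
      ∀ g : AutC a b c, g.1 i = i → g.1 j = j → g ^ 2 ∈ N) : N = ⊤ := by
  refine top_of_near hdiv N two_pos fun a' b' c' z u m ht φ hz hu hv => ?_
  have hz0 : z ≠ 0 := by
    rintro rfl
    have h := ht.ii
    rw [mul_zero] at h
    exact a'.ne_zero (smul_one_inj (a := a) (b := b) (c := c) (by rw [← h, zero_smul]))
  have hu0 : u ≠ 0 := by
    rintro rfl
    have h := ht.jj
    rw [mul_zero] at h
    exact b'.ne_zero (smul_one_inj (a := a) (b := b) (c := c) (by rw [← h, zero_smul]))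
  obtain ⟨Φ, hΦ, hm, hst, hnm⟩ := exists_emb ht
  have ez : Φ gi = z := by
    rw [hΦ]
    simp [Oct.emb, qemb, gi]
  have eu : Φ gj = u := by
    rw [hΦ]
    simp [Oct.emb, qemb, gj]
  have em : Φ gl = m := by
    rw [hΦ]
    simp [Oct.emb, qemb, gl]
  have hs : ∀ x y, Φ.symm (x * y) = Φ.symm x * Φ.symm y := by
    intro x y
    apply Φ.injective
    rw [hm, Φ.apply_symm_apply, Φ.apply_symm_apply, Φ.apply_symm_apply]
  have hback : ∀ g : AutC a b c, conjA Φ hm (conjA Φ.symm hs g) = g := by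
    intro g
    apply Subtype.ext
    apply LinearEquiv.ext
    intro x
    change Φ (Φ.symm (g.1 (Φ.symm.symm (Φ.symm x)))) = g.1 x
    rw [Φ.apply_symm_apply, LinearEquiv.symm_symm, Φ.apply_symm_apply]
  obtain ⟨t, ht'⟩ := exists_long (conjA Φ.symm hs φ) (by
      change Φ.symm (φ.1 (Φ.symm.symm gi)) = gi
      rw [LinearEquiv.symm_symm, ez, hz, ← ez, Φ.symm_apply_apply])
    (by
      change Φ.symm (φ.1 (Φ.symm.symm gj)) = gj
      rw [LinearEquiv.symm_symm, eu, hu, ← eu, Φ.symm_apply_apply])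
  have hfix : ∀ (g : SL1 a' b') (q : Qt a' b'),
      (long a' b' c' g).1 (⟨q, 0⟩ : Oct a' b' c') = ⟨q, 0⟩ := by
    intro g q
    ext1
    · rfl
    · change _ * (0 : Qt a' b') = 0
      exact mul_zero _
  have hmem : t ∈ (N.comap (conjA Φ hm)).comap (long a' b' c') := by
    refine sl_near2 (aniso_of_trip hdiv ht).1 _ (fun g => ?_) t fun w hw => ?_
    · change conjA Φ hm (long a' b' c' (g ^ 2)) ∈ N
      rw [map_pow, map_pow]
      refine hsq z u ht.si hz0 ht.sj hu0 ht.ij _ ?_ ?_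
      · change Φ ((long a' b' c' g).1 (Φ.symm z)) = z
        rw [← ez, Φ.symm_apply_apply]
        exact congrArg Φ (hfix g _)
      · change Φ ((long a' b' c' g).1 (Φ.symm u)) = u
        rw [← eu, Φ.symm_apply_apply]
        exact congrArg Φ (hfix g _)
    · have h1 := hv w hw
      have e1 : norm (φ.1 m - m) / norm m = 2 - 2 * ((t : (Qt a' b')ˣ) : Qt a' b').re := by
        have e2 : φ.1 m - m = Φ ((long a' b' c' t).1 gl - gl) := by
          rw [map_sub, em, ht']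
          change _ = Φ (Φ.symm (φ.1 (Φ.symm.symm gl))) - m
          rw [Φ.apply_symm_apply, LinearEquiv.symm_symm, em]
        rw [e2, hnm, norm_long_sub, ← em, hnm, norm_gl]
        have hc := c'.ne_zero
        field_simp
      rwa [e1] at h1
  change conjA Φ hm (long a' b' c' t) ∈ N at hmem
  rwa [ht', hback] at hmem

end Vale.Agent.P011.D4.IF
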