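import Vale.Agent.P011.D4.IF.Inv
import Vale.Agent.P011.D4.B3
import Vale.Agent.P011.D4.LongMem
import Vale.Agent.P011.E6.Pos3

/-!
The squares of the automorphisms fixing a quaternion subalgebra.
-/

namespace Vale.Agent.P011.D4.IF

open Vale.Agent.P011.MPQ Vale.Agent.P011.D4 Vale.Agent.P011.D4.Oct

variable {k : Type} [Field k] [NumberField k] {a b c : kˣ}

/-- The squares of the automorphisms fixing a quaternion subalgebra. -/
theorem sq_of_cen (hdiv : Division a b c) (N : Subgroup (AutC a b c)) (_hN : N.Normal)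
    (hc : ∀ {a' c' : kˣ} {i j l : Oct a b c}, Trip a' (-1) c' i j l →
      (∀ φ : k →+* ℝ, ¬ (φ a < 0 ∧ φ b < 0 ∧ φ c < 0) → 0 < φ a') → ∀ s : AutC a b c,
      s.1 i = i → s.1 j = j → s.1 l = -l → ∀ h : AutC a b c, h * s * h⁻¹ * s⁻¹ ∈ N)
    (i j : Oct a b c) (hi : star i = -i) (hi0 : i ≠ 0) (hj : star j = -j) (hj0 : j ≠ 0)
    (hij : dot i j = 0) (g : AutC a b c) (hgi : g.1 i = i) (hgj : g.1 j = j) : g ^ 2 ∈ N := by
  obtain ⟨l0, hl00, hl0⟩ := exists_perp (![1, i, j, i * j, 0, 0, 0] : Fin 7 → Oct a b c)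
  have p1 : dot l0 1 = 0 := hl0 0
  have p2 : dot l0 i = 0 := hl0 1
  have p3 : dot l0 j = 0 := hl0 2
  have p4 : dot l0 (i * j) = 0 := hl0 3
  obtain ⟨a', b', c', ht⟩ := exists_trip hdiv hi hi0 hj hj0 (star_iff_dot.mpr p1) hl00 hij
    (by rw [dot_comm, p2]) (by rw [dot_comm, p3]) (by rw [dot_comm, p4])
  have hdiv' := (aniso_of_trip hdiv ht).2.2.2
  obtain ⟨Φ, hΦ, hm, hst, hnm⟩ := exists_emb ht
  have ei : Φ gi = i := by
    rw [hΦ]
    simp [Oct.emb, qemb, gi]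
  have ej : Φ gj = j := by
    rw [hΦ]
    simp [Oct.emb, qemb, gj]
  have hs : ∀ x y, Φ.symm (x * y) = Φ.symm x * Φ.symm y := by
    intro x y
    apply Φ.injective
    rw [hm, Φ.apply_symm_apply, Φ.apply_symm_apply, Φ.apply_symm_apply]
  have hback : ∀ g : AutC a b c, conjA Φ hm (conjA Φ.symm hs g) = g := by
    intro g
    apply Subtype.ext
    apply LinearEquiv.ext
    intro x
    change Φ (Φ.symm (g.1 (Φ.symm.symm (Φ.symm x)))) = g.1 x
    rw [Φ.apply_symm_apply, LinearEquiv.symm_symm, Φ.apply_symm_apply]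
  obtain ⟨t, ht'⟩ := exists_long (conjA Φ.symm hs g) (by
      change Φ.symm (g.1 (Φ.symm.symm gi)) = gi
      rw [LinearEquiv.symm_symm, ei, hgi, ← ei, Φ.symm_apply_apply])
    (by
      change Φ.symm (g.1 (Φ.symm.symm gj)) = gj
      rw [LinearEquiv.symm_symm, ej, hgj, ← ej, Φ.symm_apply_apply])
  have hsign : ∀ φ : k →+* ℝ, (φ a' < 0 ∧ φ b' < 0 ∧ φ c' < 0) → (φ a < 0 ∧ φ b < 0 ∧ φ c < 0) := by
    intro φ h
    have h1 : E6.Dfn φ a' b' c' := h
    exact h1.trip (trip_map trip_std hs)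
  have h := long_sq_mem hdiv' (N.comap (conjA Φ hm)) (by
    intro a'' c'' i'' j'' l'' hT hr s h1 h2 h3 h
    change conjA Φ hm (h * s * h⁻¹ * s⁻¹) ∈ N
    rw [map_mul, map_mul, map_mul, map_inv, map_inv]
    refine hc (trip_map hT hm) (fun φ hφ => hr φ fun h' => hφ (hsign φ h')) (conjA Φ hm s) ?_ ?_ ?_ _
    · change Φ (s.1 (Φ.symm (Φ i''))) = Φ i''
      rw [Φ.symm_apply_apply, h1]
    · change Φ (s.1 (Φ.symm (Φ j''))) = Φ j''
      rw [Φ.symm_apply_apply, h2]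
    · change Φ (s.1 (Φ.symm (Φ l''))) = -Φ l''
      rw [Φ.symm_apply_apply, h3, map_neg]) t
  change conjA Φ hm (long a' b' c' t ^ 2) ∈ N at h
  rwa [map_pow, ht', hback] at h

end Vale.Agent.P011.D4.IF
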