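import Vale.Agent.P011.D4.IF.Sphere
import Vale.Agent.P011.D4.IF.SqCen
import Vale.Agent.P011.D4.IF.H64.Cen
import Vale.Agent.P011.D4.IF.Meets
import Vale.Agent.P011.D4.IF.Eight
import Vale.Agent.P011.D4.IF.Rev
import Vale.Agent.P011.D4.IF.Sq
import Vale.Agent.P011.D4.HFin

/-!
Assembly: the automorphism groups of division octonion algebras and the trialitarian groups over
number fields are simple.
-/

open NumberField IsDedekindDomain Topology

namespace Vale.Agent.P011.D4.IF

open Vale.Agent.P011.MPQ Vale.Agent.P011.Arith Vale.Agent.P011.D4 Vale.Agent.P011.D4.Oct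
open Vale.Agent.P011.D4.H24 (exists_ext)

/-- The automorphism group of a division octonion algebra over a number field is simple. -/
theorem autC_simple {k : Type} [Field k] [NumberField k] {a b c : kˣ} (hdiv : Division a b c)
    (N : Subgroup (AutC a b c)) (hN : N.Normal) : N = ⊥ ∨ N = ⊤ := by
  by_cases hN1 : N = ⊥
  · exact Or.inl hN1
  right
  have htr : ∀ u v : Oct a b c, Three u → Three v → ∃ n ∈ N, n.1 u = v :=
    three_trans fun x y hx hy hx3 hy3 => sphere_trans hdiv N hN hN1 hx hx3 hy hy3 three_ne_zero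
  refine top_of_sq hdiv N fun i j hi hi0 hj hj0 hij g hgi hgj => ?_
  exact sq_of_cen hdiv N hN (fun ht hr s h1 h2 h3 h => cen_of_trip hdiv N hN htr ht hr s h1 h2 h3 h)
    i j hi hi0 hj hj0 hij g hgi hgj

/-- A subgroup containing the squares in a group without proper subgroups of finite index. -/
theorem top_of_sq_of_index {G : Type} [Group G] (N : Subgroup G) (hsq : ∀ g : G, g ^ 2 ∈ N)
    (hidx : ∀ S : Subgroup G, S.index ≠ 0 → S = ⊤) : N = ⊤ := by
  rw [eq_top_iff]
  intro g _
  by_contra hg
  obtain ⟨H, -, hgH, h2⟩ := exists_index_two N hsq hg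
  have h3 := hidx H (by rw [h2]; exact two_ne_zero)
  exact hgH (h3 ▸ Subgroup.mem_top g)

section tri

variable {k E M : Type} [Field k] [NumberField k] [Field E] [NumberField E] [Field M]
  [NumberField M] [Algebra k E] [Algebra k M] [Algebra E M] [IsScalarTower k E M]
  {ρ : M ≃ₐ[k] M} {I : Set (M ≃ₐ[k] M)} {a b c : kˣ}

/-- The trialitarian groups are simple. -/
theorem triU_simple (hU : SetU k E M ρ I) (hdiv : Division a b c)
    (N : Subgroup (TriU ρ I a b c)) (hN : N.Normal) : N = ⊥ ∨ N = ⊤ := by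
  by_cases hN1 : N = ⊥
  · exact Or.inl hN1
  right
  obtain ⟨e, he⟩ := exists_ext ρ I a b c
  obtain ⟨h, hh1, hh⟩ := meets_of_nonpure
    (fun hab x hx h1 h2 => exists_nonpure hU.h3 hab x hx h1 h2) hU hdiv he N hN hN1
  have hc : N.comap e = ⊤ := (autC_simple hdiv (N.comap e) (hN.comap e)).resolve_left fun h0 => by
    apply hh1
    have h1 : h ∈ N.comap e := hh
    rw [h0] at h1
    exact Subgroup.mem_bot.mp h1
  have hext : ∀ g : AutC a b c, e g ∈ N := fun g => by
    have h1 : g ∈ N.comap e := by rw [hc]; exact Subgroup.mem_top g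
    exact h1
  exact top_of_sq_of_index N (sq_mem hU hdiv he N hN hext) fun S hS => tri_top hU hdiv S hS

end tri

/-- The trialitarian group of an arbitrary cubic extension is simple. -/
theorem gd4_simple {k L M : Type} [Field k] [NumberField k] [Field L] [Algebra k L] [Field M]
    [Algebra k M] [Algebra L M] [IsScalarTower k L M] [FiniteDimensional k M]
    [IsNormalClosure k L M] (h3 : Module.finrank k L = 3) (ρ : M ≃ₐ[k] M) (hρ : ρ ≠ 1)
    (hρ3 : ρ ^ 3 = 1) {a b c : kˣ} (hdiv : Oct.Division a b c) (N : Subgroup (GD4 L ρ a b c))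
    (hN : N.Normal) : N = ⊥ ∨ N = ⊤ := by
  have h1 : ∀ m, ρ (ρ (ρ m)) = m := fun m => by
    have h := congrArg (fun g : M ≃ₐ[k] M => g m) hρ3
    simpa [pow_succ] using h
  have hM : NumberField M := NumberField.of_module_finite k M
  obtain ⟨E, hU⟩ := Gl.exists_setU (L := L) h3 hρ h1
  have hE : NumberField E := NumberField.of_module_finite k E
  exact triU_simple hU hdiv N hN

/-- **Trialitarian groups**, final form: the group is simple, and it has no proper subgroup of
finite index. -/
theorem td4_simple {k L M : Type} [Field k] [NumberField k] [Field L] [Algebra k L] [Field M]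
    [Algebra k M] [Algebra L M] [IsScalarTower k L M] [FiniteDimensional k M]
    [IsNormalClosure k L M] (h3 : Module.finrank k L = 3) (ρ : M ≃ₐ[k] M) (hρ : ρ ≠ 1)
    (hρ3 : ρ ^ 3 = 1) {a b c : kˣ} (hdiv : Oct.Division a b c) (N : Subgroup (TD4 L ρ a b c)) :
    (N.Normal → N = ⊥ ∨ N = ⊤) ∧ (N.index ≠ 0 → N = ⊤) := by
  refine ⟨fun hN => ?_, fun hi => td4_top h3 ρ hρ hρ3 hdiv N hi⟩
  rcases gd4_simple h3 ρ hρ hρ3 hdiv (N.comap toTD4) (hN.comap _) with h | h
  · left
    rw [eq_bot_iff]
    intro g hg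
    obtain ⟨g', rfl⟩ := toTD4_surjective g
    have h1 : g' ∈ N.comap toTD4 := hg
    rw [h, Subgroup.mem_bot] at h1
    rw [h1, map_one]
    exact Subgroup.one_mem _
  · right
    rw [eq_top_iff]
    intro g _
    obtain ⟨g', rfl⟩ := toTD4_surjective g
    have h2 : g' ∈ N.comap toTD4 := by rw [h]; exact Subgroup.mem_top g'
    exact h2

end Vale.Agent.P011.D4.IF
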