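import Vale.Agent.P011.D4.Asm3
import Vale.Agent.P011.D4.IF.Rev
import Vale.Agent.P011.D4.IF.Sq

/-!
A normal subgroup of the trialitarian group which contains the automorphisms of the octonion
algebra is the whole group.
-/

open NumberField

namespace Vale.Agent.P011.D4.IF

open Vale.Agent.P011.MPQ Vale.Agent.P011.D4 Vale.Agent.P011.D4.Oct

theorem top_of_ext {k E M : Type} [Field k] [NumberField k] [Field E] [NumberField E] [Field M]
    [NumberField M] [Algebra k E] [Algebra k M] [Algebra E M] [IsScalarTower k E M]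
    {ρ : M ≃ₐ[k] M} {I : Set (M ≃ₐ[k] M)} {a b c : kˣ} (hU : SetU k E M ρ I)
    (hdiv : Division a b c) {e : AutC a b c →* TriU ρ I a b c} (he : IsExtU ρ I e)
    (N : Subgroup (TriU ρ I a b c)) (hN : N.Normal) (h : ∀ φ : AutC a b c, e φ ∈ N) : N = ⊤ := by
  by_contra hne
  obtain ⟨x, hx⟩ : ∃ x, x ∉ N := by
    by_contra hcon
    push Not at hcon
    exact hne (Subgroup.eq_top_iff' N |>.2 hcon)
  obtain ⟨H, hH1, hH2, hH3⟩ := exists_index_two N (sq_mem hU hdiv he N hN h) hx
  have := tri_top hU hdiv H (by rw [hH3]; exact two_ne_zero)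
  exact hH2 (this ▸ Subgroup.mem_top x)

end Vale.Agent.P011.D4.IF
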