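import Vale.Agent.P011.D4.B3
import Vale.Agent.P011.D4.H369.Pair

/-!
(IF-2) Transitivity of the automorphism group on pairs of pure elements.
-/

namespace Vale.Agent.P011.D4.IF

open Vale.Agent.P011.MPQ Vale.Agent.P011.D4 Vale.Agent.P011.D4.Oct

section field

variable {F : Type} [Field F] [NeZero (2 : F)] {a b c : Fˣ}

theorem aut_dot' (g : AutC a b c) (x y : Oct a b c) : dot (g.1 x) (g.1 y) = dot x y := aut_dot g x y

/-- Transitivity on the pure elements of given norm. -/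
theorem single_trans (hdiv : Division a b c) {x x' : Oct a b c} (hx : dot x 1 = 0)
    (hx' : dot x' 1 = 0) (hn : norm x' = norm x) : ∃ g : AutC a b c, g.1 x = x' := by
  obtain ⟨z, hz0, hz⟩ := exists_perp ![1, x' - x, 1, 1, 1, 1, 1]
  have hz1 : dot z 1 = 0 := hz 0
  have hz2 : dot z (x' - x) = 0 := hz 1
  obtain ⟨u, hu0, hu⟩ := exists_perp ![1, z, x' - x, star z * (x' - x), 1, 1, 1]
  have hu1 : dot u 1 = 0 := hu 0
  have hu2 : dot u z = 0 := hu 1
  have hu3 : dot u (x' - x) = 0 := hu 2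
  have hu4 : dot u (star z * (x' - x)) = 0 := hu 3
  obtain ⟨g, -, -, hg⟩ := exists_move hdiv (star_iff_dot.2 hz1) hz0 (star_iff_dot.2 hu1) hu0
    (by rw [dot_comm, hu2]) (star_iff_dot.2 hx) (star_iff_dot.2 hx') hn hz2 hu3
    (by rw [dot_mul_left, hu4])
  exact ⟨g, hg⟩

/-- Transitivity on orthogonal pairs with the same first element. -/
theorem orth_trans (hdiv : Division a b c) {x y y' : Oct a b c} (hx : dot x 1 = 0) (hx0 : x ≠ 0)
    (hy : dot y 1 = 0) (hy' : dot y' 1 = 0) (hn : norm y' = norm y) (hxy : dot x y = 0)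
    (hxy' : dot x y' = 0) : ∃ g : AutC a b c, g.1 x = x ∧ g.1 y = y' := by
  obtain ⟨u, hu0, hu⟩ := exists_perp ![1, x, y' - y, star x * (y' - y), 1, 1, 1]
  have hu1 : dot u 1 = 0 := hu 0
  have hu2 : dot u x = 0 := hu 1
  have hu3 : dot u (y' - y) = 0 := hu 2
  have hu4 : dot u (star x * (y' - y)) = 0 := hu 3
  obtain ⟨g, hg, -, hg'⟩ := exists_move hdiv (star_iff_dot.2 hx) hx0 (star_iff_dot.2 hu1) hu0
    (by rw [dot_comm, hu2]) (star_iff_dot.2 hy) (star_iff_dot.2 hy') hn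
    (by rw [dot_sub_right, hxy, hxy', sub_zero]) hu3 (by rw [dot_mul_left, hu4])
  exact ⟨g, hg, hg'⟩

omit [NeZero (2 : F)] in
theorem norm_add_dot (x y : Oct a b c) : norm (x + y) = norm x + norm y + 2 * dot x y := by
  rw [norm_add, bil_eq_dot]

omit [NeZero (2 : F)] in
theorem norm_sub_smul (x y : Oct a b c) (t : F) :
    norm (y - t • x) = norm y - 2 * t * dot x y + t ^ 2 * norm x := by
  rw [norm_sub, bil_smul_right, bil_eq_dot, Oct.norm_smul, dot_comm y x]
  ring

/-- Transitivity on pairs. -/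
theorem pair_trans (hdiv : Division a b c) {x y x' y' : Oct a b c} (hx : dot x 1 = 0)
    (hx0 : x ≠ 0) (hy : dot y 1 = 0) (hx' : dot x' 1 = 0) (hy' : dot y' 1 = 0)
    (hnx : norm x' = norm x) (hny : norm y' = norm y) (hd : dot x' y' = dot x y) :
    ∃ g : AutC a b c, g.1 x = x' ∧ g.1 y = y' := by
  obtain ⟨g, hg⟩ := single_trans hdiv hx hx' hnx
  have hnx0 : norm x' ≠ 0 := by
    rw [hnx]
    exact fun h => hx0 (hdiv x h)
  have hx0' : x' ≠ 0 := by
    rintro rfl
    exact hnx0 norm_zero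
  obtain ⟨t, ht⟩ : ∃ t, t = dot x' y' / norm x' := ⟨_, rfl⟩
  have ht' : t * norm x' = dot x' y' := by rw [ht, div_mul_cancel₀ _ hnx0]
  have hgy : dot (g.1 y) 1 = 0 := by
    rw [← aut_one g, aut_dot, hy]
  have hgd : dot x' (g.1 y) = dot x' y' := by
    rw [← hg, aut_dot, ← hd, hg]
  have hgn : norm (g.1 y) = norm y := aut_norm g y
  obtain ⟨h, h1, h2⟩ := orth_trans hdiv (x := x') (y := g.1 y - t • x') (y' := y' - t • x') hx'
    hx0' (by rw [dot_sub_left, dot_smul_left, hgy, hx']; ring)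
    (by rw [dot_sub_left, dot_smul_left, hy', hx']; ring)
    (by rw [norm_sub_smul, norm_sub_smul, hgd, hgn, hny])
    (by rw [dot_sub_right, dot_smul_right, hgd, ← norm_eq_dot, ht', sub_self])
    (by rw [dot_sub_right, dot_smul_right, ← norm_eq_dot, ht', sub_self])
  refine ⟨h * g, ?_, ?_⟩
  · change h.1 (g.1 x) = x'
    rw [hg, h1]
  · change h.1 (g.1 y) = y'
    rw [map_sub, map_smul, h1] at h2
    exact sub_left_injective h2

end field

end Vale.Agent.P011.D4.IF
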