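import Vale.Agent.P011.D4.IF.Sph1
import Vale.Agent.P011.E6.Pos3

/-!
(IF-2) Sphere transitivity: the arithmetic step.
-/

namespace Vale.Agent.P011.D4.IF

open Vale.Agent.P011.MPQ Vale.Agent.P011.Arith Vale.Agent.P011.D4 Vale.Agent.P011.D4.Oct
open Vale.Agent.P011.E6 (DefAt real_approx)

variable {k : Type} [Field k] [NumberField k] {a b c : kˣ}

/-- Definiteness descends from the coordinates of a basic triple. -/
theorem defAt_of_trip {a' b' c' : kˣ} {φ : k →+* ℝ} {i j l : Oct a b c}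
    (ht : Trip a' b' c' i j l) (h : DefAt φ a' b' c') : DefAt φ a b c := by
  obtain ⟨Φ, -, -, -, hn⟩ := exists_emb ht
  intro x hx
  obtain ⟨y, rfl⟩ := Φ.surjective x
  rw [hn]
  apply h
  rintro rfl
  exact hx (map_zero _)

/-- Choice of a scalar which is small at the places in `A` and large at the other ones. -/
theorem exists_size (A : Set (k →+* ℝ)) (β : (k →+* ℝ) → ℝ) (hβ : ∀ φ ∈ A, 0 < β φ) :
    ∃ s : k, (∀ φ ∈ A, φ s ^ 2 < β φ) ∧ ∀ φ ∉ A, β φ < φ s ^ 2 := by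
  classical
  have hM : ∀ φ : k →+* ℝ, ∃ n : ℕ, |β φ| + 2 < n := fun φ => exists_nat_gt _
  choose n hn using hM
  let z : (k →+* ℝ) → k := fun φ => if φ ∈ A then 0 else n φ
  let δ : (k →+* ℝ) → ℝ := fun φ => if φ ∈ A then min 1 (β φ) else 1
  obtain ⟨s, hs⟩ := real_approx z δ (fun φ => by
    simp only [δ]
    split_ifs with h
    · exact lt_min one_pos (hβ φ h)
    · exact one_pos)
  refine ⟨s, fun φ hφ => ?_, fun φ hφ => ?_⟩
  · have h1 := hs φ
    simp only [z, δ, hφ, if_true, map_zero, sub_zero] at h1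
    obtain ⟨h2, h3⟩ := lt_min_iff.1 h1
    have h4 : φ s ^ 2 = |φ s| * |φ s| := by rw [← sq, sq_abs]
    rw [h4]
    have := abs_nonneg (φ s)
    nlinarith
  · have h1 := hs φ
    simp only [z, δ, hφ, if_false, map_natCast] at h1
    have h2 := abs_lt.1 h1
    have h3 := hn φ
    have h4 := le_abs_self (β φ)
    have h5 := abs_nonneg (β φ)
    have h6 : |β φ| + 1 < φ s := by linarith [h2.1]
    nlinarith

/-- Vectors of given norm orthogonal to two pure vectors. -/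
theorem perp_repr (hdiv : Division a b c) {x y : Oct a b c} (hx : dot x 1 = 0) (hx0 : x ≠ 0)
    (hy : dot y 1 = 0) (hy0 : y ≠ 0) (hxy : dot x y = 0) {e : k}
    (he : ∀ φ : k →+* ℝ, DefAt φ a b c → 0 < φ e) :
    ∃ z : Oct a b c, dot z 1 = 0 ∧ dot x z = 0 ∧ dot y z = 0 ∧ norm z = e := by
  obtain ⟨a', b', c', l, ht⟩ := H369.trip_of_ij hdiv hx hx0 hy hy0 (by rw [dot_comm, hxy])
  have htr := ht.triple
  have hc0 : ∀ φ : k →+* ℝ, φ c' ≠ 0 := fun φ => (map_ne_zero φ).2 c'.ne_zero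
  obtain ⟨s, hs1, hs2⟩ := exists_size (k := k) {φ | φ a' < 0 ∧ φ b' < 0 ∧ φ c' < 0}
    (fun φ => φ e / (φ a' * φ b')) (by
      rintro φ ⟨h1, h2, h3⟩
      have h4 : DefAt φ a b c := defAt_of_trip ht (DefAt.of_neg h1 h2 h3)
      exact div_pos (he φ h4) (mul_pos_of_neg_of_neg h1 h2))
  have key : ∀ φ : k →+* ℝ, φ a' < 0 → φ b' < 0 → 0 < φ ((s ^ 2 * (a' * b') - e) / c') := by
    intro φ h1 h2
    have h12 := mul_pos_of_neg_of_neg h1 h2
    rw [map_div₀, map_sub, map_mul, map_mul, map_pow]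
    rcases lt_or_gt_of_ne (hc0 φ) with h3 | h3
    · have h4 := hs1 φ ⟨h1, h2, h3⟩
      rw [lt_div_iff₀ h12] at h4
      exact div_pos_of_neg_of_neg (by linarith) h3
    · have h4 := hs2 φ (fun h => absurd h.2.2 (not_lt.2 h3.le))
      rw [div_lt_iff₀ h12] at h4
      exact div_pos (by linarith) h3
  obtain ⟨q, hq⟩ : ∃ q : Qt a' b', nrd q = (s ^ 2 * (a' * b') - e) / c' := by
    by_cases h0 : (s ^ 2 * ((a' : k) * b') - e) / c' = 0
    · exact ⟨0, by rw [h0]; simp [nrd]⟩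
    · obtain ⟨q, hq⟩ := exists_nrd (a := a') (b := b') (Units.mk0 _ h0) key
      exact ⟨q, hq⟩
  have hxy1 : dot (x * y) 1 = 0 := H369.dot_mul_one hx (by rw [dot_comm, hxy])
  have hxyx : dot (x * y) x = 0 := H369.dot_mul_i hy
  have hxyy : dot (x * y) y = 0 := H369.dot_mul_j hx
  have hp : Perp x y (qemb x y q * l) := (ht.perp_iff _).2 ⟨q, rfl⟩
  obtain ⟨p1, p2, p3, p4⟩ := hp
  have q1 : dot (qemb x y q * l) 1 = 0 := dot_eq_zero_iff_bil.2 p1
  have q2 : dot (qemb x y q * l) x = 0 := dot_eq_zero_iff_bil.2 p2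
  have q3 : dot (qemb x y q * l) y = 0 := dot_eq_zero_iff_bil.2 p3
  have q4 : dot (qemb x y q * l) (x * y) = 0 := dot_eq_zero_iff_bil.2 p4
  refine ⟨s • (x * y) + qemb x y q * l, ?_, ?_, ?_, ?_⟩
  · rw [dot_add_left, dot_smul_left, hxy1, q1, mul_zero, add_zero]
  · rw [dot_add_right, dot_smul_right, dot_comm x, hxyx, dot_comm x, q2, mul_zero, add_zero]
  · rw [dot_add_right, dot_smul_right, dot_comm y, hxyy, dot_comm y, q3, mul_zero, add_zero]
  · rw [norm_add_dot, Oct.norm_smul, htr.norm_ij, htr.norm_mul_l, htr.norm_l, dot_smul_left,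
      dot_comm (x * y), q4, hq]
    have := c'.ne_zero
    field_simp
    ring

/-- The angles between a vector of norm `d` and its images under `N`. -/
def Gam (N : Subgroup (AutC a b c)) (d : k) : Set k :=
  {γ | ∃ x y : Oct a b c, dot x 1 = 0 ∧ dot y 1 = 0 ∧ norm x = d ∧ norm y = d ∧
    dot x y = γ * d ∧ ∃ n ∈ N, n.1 x = y}

theorem Gam.all (hdiv : Division a b c) {N : Subgroup (AutC a b c)} (hN : N.Normal) {d : k}
    (hd : d ≠ 0) {γ : k} (h : γ ∈ Gam N d) {x y : Oct a b c} (hx : dot x 1 = 0)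
    (hy : dot y 1 = 0) (hnx : norm x = d) (hny : norm y = d) (hxy : dot x y = γ * d) :
    ∃ n ∈ N, n.1 x = y := by
  obtain ⟨x0, y0, h1, h2, h3, h4, h5, n, hn, hn'⟩ := h
  have hx0 : x0 ≠ 0 := by
    rintro rfl
    rw [Oct.norm_zero] at h3
    exact hd h3.symm
  obtain ⟨g, hg1, hg2⟩ := pair_trans hdiv h1 hx0 h2 hx hy (by rw [hnx, h3]) (by rw [hny, h4])
    (by rw [hxy, h5])
  refine ⟨g * n * g⁻¹, hN.conj_mem n hn g, ?_⟩
  have e : (g⁻¹ : AutC a b c).1 x = x0 := by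
    rw [← hg1]
    change (g⁻¹ * g : AutC a b c).1 x0 = x0
    rw [inv_mul_cancel]
    rfl
  change g.1 (n.1 ((g⁻¹ : AutC a b c).1 x)) = y
  rw [e, hn', hg2]

theorem norm_posD {φ : k →+* ℝ} (h : DefAt φ a b c) {x : Oct a b c} {d : k}
    (hd : d ≠ 0) (hx : norm x = d) : 0 < φ d := by
  rw [← hx]
  apply h
  rintro rfl
  rw [Oct.norm_zero] at hx
  exact hd hx.symm

/-- Angle addition. -/
theorem Gam.step (hdiv : Division a b c) {N : Subgroup (AutC a b c)} (hN : N.Normal) {d : k}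
    (hd : d ≠ 0) {γ γ' : k} (h : γ ∈ Gam N d) (hγ : γ ^ 2 ≠ 1)
    (hγ' : ∀ φ : k →+* ℝ, DefAt φ a b c → φ (2 * γ ^ 2 - 1) < φ γ' ∧ φ γ' < 1) :
    γ' ∈ Gam N d := by
  obtain ⟨x, y, h1, h2, h3, h4, h5, n, hn, hn'⟩ := id h
  have hx0 : x ≠ 0 := by
    rintro rfl
    rw [Oct.norm_zero] at h3
    exact hd h3.symm
  have h1γ : 1 - γ ^ 2 ≠ 0 := fun h => hγ (by linear_combination -h)
  have hny : norm (y - γ • x) = d * (1 - γ ^ 2) := by
    rw [norm_sub_smul, h3, h4, h5]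
    ring
  have hy0 : y - γ • x ≠ 0 := by
    intro h
    rw [h, Oct.norm_zero] at hny
    exact mul_ne_zero hd h1γ hny.symm
  have hy1 : dot (y - γ • x) 1 = 0 := by
    rw [dot_sub_left, dot_smul_left, h1, h2]
    ring
  have hxy0 : dot x (y - γ • x) = 0 := by
    rw [dot_sub_right, dot_smul_right, ← norm_eq_dot, h3, h5]
    ring
  obtain ⟨z, z1, z2, z3, z4⟩ := perp_repr hdiv h1 hx0 hy1 hy0 hxy0
    (e := d * (1 - γ') * (1 + γ' - 2 * γ ^ 2) / (1 - γ ^ 2)) (by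
      intro φ hφ
      have e1 := norm_posD hφ hd h3
      have e2 : 0 < φ (d * (1 - γ ^ 2)) := norm_posD hφ (mul_ne_zero hd h1γ) hny
      obtain ⟨e3, e4⟩ := hγ' φ hφ
      rw [map_mul] at e2
      have e5 : 0 < φ (1 - γ ^ 2) := (mul_pos_iff_of_pos_left e1).1 e2
      rw [map_div₀, map_mul, map_mul]
      have e6 : 0 < φ (1 - γ') := by rw [map_sub, map_one]; linarith
      have e7 : 0 < φ (1 + γ' - 2 * γ ^ 2) := by
        have : φ (1 + γ' - 2 * γ ^ 2) = φ γ' - φ (2 * γ ^ 2 - 1) := by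
          simp only [map_add, map_sub, map_mul, map_pow, map_one, map_ofNat]; ring
        rw [this]
        linarith
      positivity)
  obtain ⟨β, hβ⟩ : ∃ β, β = γ * (1 - γ') / (1 - γ ^ 2) := ⟨_, rfl⟩
  have hβ' : β * (1 - γ ^ 2) = γ * (1 - γ') := by rw [hβ, div_mul_cancel₀ _ h1γ]
  obtain ⟨w, hw⟩ : ∃ w, w = γ' • x + β • (y - γ • x) + z := ⟨_, rfl⟩
  have hw1 : dot w 1 = 0 := by
    rw [hw, dot_add_left, dot_add_left, dot_smul_left, dot_smul_left, h1, hy1, z1]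
    ring
  have hxw : dot x w = γ' * d := by
    rw [hw, dot_add_right, dot_add_right, dot_smul_right, dot_smul_right, hxy0, z2,
      ← norm_eq_dot, h3]
    ring
  have hy0w : dot (y - γ • x) w = β * (d * (1 - γ ^ 2)) := by
    rw [hw, dot_add_right, dot_add_right, dot_smul_right, dot_smul_right, z3,
      ← norm_eq_dot (y - γ • x), hny, dot_comm (y - γ • x) x, hxy0]
    ring
  have hyw : dot y w = γ * d := by
    have : dot y w = dot (y - γ • x) w + γ * dot x w := by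
      rw [dot_sub_left, dot_smul_left]
      ring
    rw [this, hy0w, hxw]
    linear_combination d * hβ'
  have hnw : norm w = d := by
    have e1 : norm w = γ' ^ 2 * d + β ^ 2 * (d * (1 - γ ^ 2)) + norm z := by
      rw [hw, norm_add_dot, norm_add_dot, Oct.norm_smul, Oct.norm_smul, h3, hny, dot_add_left,
        dot_smul_left, dot_smul_left, dot_smul_left, dot_smul_right, hxy0, z2, z3]
      ring
    rw [e1, z4, hβ]
    field_simp
    ring
  obtain ⟨n', hn1, hn2⟩ := Gam.all hdiv hN hd h h2 hw1 h4 hnw hyw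
  refine ⟨x, w, h1, hw1, h3, hnw, hxw, n' * n, N.mul_mem hn1 hn, ?_⟩
  change n'.1 (n.1 x) = w
  rw [hn', hn2]

end Vale.Agent.P011.D4.IF
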