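import Vale.Agent.P011.D4.IF.Sph2

/-!
(IF-2) A nontrivial normal subgroup of the automorphism group of an octonion division algebra over
a number field is transitive on the pure elements of given norm.
-/

open Polynomial

namespace Vale.Agent.P011.D4.IF

open Vale.Agent.P011.MPQ Vale.Agent.P011.Arith Vale.Agent.P011.D4 Vale.Agent.P011.D4.Oct
open Vale.Agent.P011.E6 (DefAt real_approx)

section field

variable {F : Type} [Field F] {a b c : Fˣ}

/-- An automorphism which is the identity on a vector `x` and on the general vectors. -/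
theorem eps_all [CharZero F] (hdiv : Division a b c) (n : AutC a b c) {x : Oct a b c} (hx0 : x ≠ 0)
    {d : F} (hnx : norm x = d) {ε : F} (hε : n.1 x = ε • x)
    (h : ∀ w : Oct a b c, dot w 1 = 0 → dot x w ≠ 0 → 2 * (dot x w) ^ 2 ≠ d * norm w →
      n.1 w = ε • w) (w : Oct a b c) (hw : dot w 1 = 0) (hx : dot x 1 = 0) : n.1 w = ε • w := by
  have hd : d ≠ 0 := by
    rw [← hnx]
    exact fun h => hx0 (hdiv x h)
  -- choose `t` with `w + t x` general
  obtain ⟨t, ht1, ht2⟩ : ∃ t : F, dot x w + t * d ≠ 0 ∧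
      2 * (dot x w + t * d) ^ 2 - d * (norm w + 2 * t * dot x w + t ^ 2 * d) ≠ 0 := by
    by_contra hcon
    push Not at hcon
    have hp : (C (dot x w) + X * C d) * (2 * (C (dot x w) + X * C d) ^ 2 -
        C d * (C (norm w) + 2 * X * C (dot x w) + X ^ 2 * C d)) = (0 : F[X]) := by
      apply Polynomial.funext
      intro t
      simp only [eval_mul, eval_add, eval_C, eval_X, eval_sub, eval_pow, eval_ofNat, eval_zero]
      by_cases h1 : dot x w + t * d = 0
      · rw [h1, zero_mul]
      · rw [hcon t h1, mul_zero]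
    rcases mul_eq_zero.1 hp with h1 | h1
    · have h2 := congrArg (fun p : F[X] => p.coeff 1) h1
      simp at h2
      exact hd h2
    · have h2 := congrArg (fun p : F[X] => p.eval 0) h1
      have h3 := congrArg (fun p : F[X] => p.eval 1) h1
      have h4 := congrArg (fun p : F[X] => p.eval (-1)) h1
      simp only [eval_mul, eval_add, eval_C, eval_X, eval_sub, eval_pow, eval_ofNat,
        eval_zero] at h2 h3 h4
      have h5 : 2 * d ^ 2 = 0 := by linear_combination h3 + h4 - 2 * h2
      rcases mul_eq_zero.1 h5 with h6 | h6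
      · exact two_ne_zero h6
      · exact hd (pow_eq_zero_iff two_ne_zero |>.1 h6)
  have e1 : dot x (w + t • x) = dot x w + t * d := by
    rw [dot_add_right, dot_smul_right, ← norm_eq_dot, hnx]
  have e2 : norm (w + t • x) = norm w + 2 * t * dot x w + t ^ 2 * d := by
    rw [norm_add_dot, Oct.norm_smul, hnx, dot_smul_right, dot_comm w]
    ring
  have h1 := h (w + t • x) (by rw [dot_add_left, dot_smul_left, hw, hx]; ring)
    (by rw [e1]; exact ht1) (by
      rw [e1, e2]
      intro h5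
      exact ht2 (by linear_combination h5))
  rw [map_add, map_smul, hε] at h1
  have h2 : n.1 w = ε • w + (ε • t • x - t • ε • x) := by
    rw [← sub_eq_zero] at h1
    rw [← sub_eq_zero, ← h1]
    module
  rw [h2, smul_comm, sub_self, add_zero]

/-- A nontrivial automorphism moves a pure element of norm `d` to another line. -/
theorem exists_moved [CharZero F] (hdiv : Division a b c) {n : AutC a b c} (hn : n ≠ 1) {d : F}
    (hd : d ≠ 0) {x0 : Oct a b c} (hx0 : dot x0 1 = 0) (hnx0 : norm x0 = d) :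
    ∃ x : Oct a b c, dot x 1 = 0 ∧ norm x = d ∧ n.1 x ≠ x ∧ n.1 x ≠ -x := by
  have : NeZero (2 : F) := ⟨two_ne_zero⟩
  by_contra hcon
  have hpm : ∀ x : Oct a b c, dot x 1 = 0 → norm x = d → n.1 x = x ∨ n.1 x = -x := by
    intro x h1 h2
    by_contra h3
    push Not at h3
    exact hcon ⟨x, h1, h2, h3.1, h3.2⟩
  have hx00 : x0 ≠ 0 := by
    rintro rfl
    rw [Oct.norm_zero] at hnx0
    exact hd hnx0.symm
  obtain ⟨ε, hε, hεx⟩ : ∃ ε : F, (ε = 1 ∨ ε = -1) ∧ n.1 x0 = ε • x0 := by
    rcases hpm x0 hx0 hnx0 with h | h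
    · exact ⟨1, Or.inl rfl, by rw [h, one_smul]⟩
    · exact ⟨-1, Or.inr rfl, by rw [h, neg_one_smul]⟩
  have hgen : ∀ w : Oct a b c, dot w 1 = 0 → dot x0 w ≠ 0 → 2 * (dot x0 w) ^ 2 ≠ d * norm w →
      n.1 w = ε • w := by
    intro w hw hxw hne
    have hnw : norm w ≠ 0 := by
      intro h
      rw [hdiv w h] at hxw
      apply hxw
      rw [dot_comm, ← zero_smul F (1 : Oct a b c), dot_smul_left, zero_mul]
    obtain ⟨t, ht⟩ : ∃ t, t = 2 * dot x0 w / norm w := ⟨_, rfl⟩
    have ht' : t * norm w = 2 * dot x0 w := by rw [ht, div_mul_cancel₀ _ hnw]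
    have ht0 : t ≠ 0 := by
      rw [ht]
      exact div_ne_zero (mul_ne_zero two_ne_zero hxw) hnw
    have h1 : dot (x0 - t • w) 1 = 0 := by
      rw [dot_sub_left, dot_smul_left, hx0, hw]
      ring
    have h2 : norm (x0 - t • w) = d := by
      rw [norm_sub_smul, hnx0, dot_comm w]
      linear_combination t * ht'
    have h3 : dot x0 (x0 - t • w) ≠ 0 := by
      rw [dot_sub_right, dot_smul_right, ← norm_eq_dot, hnx0]
      intro h
      apply hne
      linear_combination (-norm w) * h - dot x0 w * ht'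
    obtain ⟨ε', hε', hεy⟩ : ∃ ε' : F, (ε' = 1 ∨ ε' = -1) ∧
        n.1 (x0 - t • w) = ε' • (x0 - t • w) := by
      rcases hpm _ h1 h2 with h | h
      · exact ⟨1, Or.inl rfl, by rw [h, one_smul]⟩
      · exact ⟨-1, Or.inr rfl, by rw [h, neg_one_smul]⟩
    have h4 : ε * ε' * dot x0 (x0 - t • w) = dot x0 (x0 - t • w) := by
      have := aut_dot n x0 (x0 - t • w)
      rw [hεx, hεy, dot_smul_left, dot_smul_right] at this
      rw [mul_assoc]
      exact this
    have h5 : ε * ε' = 1 := mul_right_cancel₀ h3 (by rw [h4, one_mul])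
    have h6 : ε' = ε := by
      rcases hε with h | h <;> rcases hε' with h' | h'
      · rw [h, h']
      · rw [h, h'] at h5
        exfalso
        have : (2 : F) = 0 := by linear_combination -h5
        exact two_ne_zero this
      · rw [h, h'] at h5
        exfalso
        have : (2 : F) = 0 := by linear_combination -h5
        exact two_ne_zero this
      · rw [h, h']
    rw [h6, map_sub, map_smul, hεx, smul_sub, sub_right_inj, smul_comm] at hεy
    have h7 := congrArg (fun z => t⁻¹ • z) hεy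
    simpa only [smul_smul, inv_mul_cancel₀ ht0, inv_mul_cancel_left₀ ht0, one_smul] using h7
  have hall := fun w hw => eps_all hdiv n hx00 hnx0 hεx hgen w hw hx0
  rcases hε with h | h
  · -- the identity
    apply hn
    apply Subtype.ext
    apply LinearEquiv.ext
    intro z
    change n.1 z = z
    have h1 : dot (z - dot z 1 • (1 : Oct a b c)) 1 = 0 := by
      rw [dot_sub_left, dot_smul_left, H369.dot_one_one]
      ring
    have h2 := hall _ h1
    rw [h, one_smul, map_sub, map_smul, aut_one] at h2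
    exact sub_left_injective h2
  · -- minus the identity on the pure elements
    obtain ⟨u, hu0, hu⟩ := exists_perp ![1, x0, 1, 1, 1, 1, 1]
    have hu1 : dot u 1 = 0 := hu 0
    have hu2 : dot u x0 = 0 := hu 1
    have h1 : dot (x0 * u) 1 = 0 := H369.dot_mul_one hx0 hu2
    have h2 := hall _ h1
    have h3 := hall _ hu1
    have h4 := hall _ hx0
    rw [n.2, h3, h4, h, neg_one_smul, neg_one_smul, neg_one_smul, neg_mul_neg] at h2
    have h5 : (2 : F) • (x0 * u) = 0 := by
      rw [two_smul]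
      nth_rewrite 2 [h2]
      exact add_neg_cancel _
    have h6 : x0 * u = 0 := (smul_eq_zero.1 h5).resolve_left two_ne_zero
    have h7 : norm x0 * norm u = 0 := by rw [← Oct.norm_mul, h6, Oct.norm_zero]
    rcases mul_eq_zero.1 h7 with h8 | h8
    · exact hx00 (hdiv _ h8)
    · exact hu0 (hdiv _ h8)

end field

section nf

variable {k : Type} [Field k] [NumberField k] {a b c : kˣ}

/-- The right angle belongs to the set of angles. -/
theorem zero_mem_Gam (hdiv : Division a b c) {N : Subgroup (AutC a b c)} (hN : N.Normal)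
    (hN1 : N ≠ ⊥) {d : k} (hd : d ≠ 0) {x0 : Oct a b c} (hx0 : dot x0 1 = 0)
    (hnx0 : norm x0 = d) : (0 : k) ∈ Gam N d := by
  have : NeZero (2 : k) := ⟨two_ne_zero⟩
  obtain ⟨⟨n, hn⟩, hn1'⟩ := Subgroup.ne_bot_iff_exists_ne_one.1 hN1
  have hn1 : n ≠ 1 := fun h => hn1' (Subtype.ext h)
  obtain ⟨x, hx, hnx, hm1, hm2⟩ := exists_moved hdiv hn1 hd hx0 hnx0
  obtain ⟨γ, hγ⟩ : ∃ γ, γ = dot x (n.1 x) / d := ⟨_, rfl⟩
  have hγ' : dot x (n.1 x) = γ * d := by rw [hγ, div_mul_cancel₀ _ hd]
  have hnn : norm (n.1 x) = d := by rw [aut_norm, hnx]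
  have hn1' : dot (n.1 x) 1 = 0 := by rw [← aut_one n, aut_dot, hx]
  have hmem : γ ∈ Gam N d := ⟨x, n.1 x, hx, hn1', hnx, hnn, hγ', n, hn, rfl⟩
  have hnorm : norm (n.1 x - γ • x) = d * (1 - γ ^ 2) := by
    rw [norm_sub_smul, hnx, hnn, hγ']
    ring
  have hγ2 : γ ^ 2 ≠ 1 := by
    intro h
    have h1 : n.1 x - γ • x = 0 := hdiv _ (by rw [hnorm, h]; ring)
    have h2 : (γ - 1) * (γ + 1) = 0 := by linear_combination h
    rcases mul_eq_zero.1 h2 with h3 | h3
    · have h4 : γ = 1 := by linear_combination h3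
      rw [h4, one_smul, sub_eq_zero] at h1
      exact hm1 h1
    · have h4 : γ = -1 := by linear_combination h3
      rw [h4, neg_one_smul, sub_neg_eq_add] at h1
      exact hm2 (eq_neg_of_add_eq_zero_left h1)
  have hpos : ∀ φ : k →+* ℝ, DefAt φ a b c → 0 < 1 - φ γ ^ 2 := by
    intro φ hφ
    have e1 := norm_posD hφ hd hnx
    have e2 : 0 < φ (d * (1 - γ ^ 2)) :=
      norm_posD hφ (mul_ne_zero hd (fun h => hγ2 (by linear_combination -h))) hnorm
    rw [map_mul] at e2
    have e3 := (mul_pos_iff_of_pos_left e1).1 e2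
    rwa [map_sub, map_one, map_pow] at e3
  -- a small rational angle
  obtain ⟨m, hm⟩ : ∃ m : ℕ, ∀ φ : k →+* ℝ, DefAt φ a b c →
      ((2 : ℝ) / 3) ^ m < 2 * (1 - φ γ ^ 2) := by
    classical
    have h1 : ∀ φ : k →+* ℝ, ∃ m : ℕ, DefAt φ a b c → ((2 : ℝ) / 3) ^ m < 2 * (1 - φ γ ^ 2) := by
      intro φ
      by_cases h : DefAt φ a b c
      · obtain ⟨m, hm⟩ := exists_pow_lt_of_lt_one (mul_pos two_pos (hpos φ h))
          (by norm_num : (2 : ℝ) / 3 < 1)
        exact ⟨m, fun _ => hm⟩
      · exact ⟨0, fun h' => absurd h' h⟩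
    choose m hm using h1
    refine ⟨Finset.univ.sup m, fun φ hφ => lt_of_le_of_lt ?_ (hm φ hφ)⟩
    exact pow_le_pow_of_le_one (by norm_num) (by norm_num) (Finset.le_sup (Finset.mem_univ φ))
  have hm0 : (1 - ((2 : k) / 3) ^ m) ∈ Gam N d := by
    apply Gam.step hdiv hN hd hmem hγ2
    intro φ hφ
    have h1 := hm φ hφ
    simp only [map_sub, map_mul, map_pow, map_one, map_ofNat, map_div₀]
    refine ⟨by linarith, ?_⟩
    have : (0 : ℝ) < (2 / 3) ^ m := by positivity
    linarith
  have hdesc : ∀ j : ℕ, (1 - ((2 : k) / 3) ^ (j + 1)) ∈ Gam N d → (1 - ((2 : k) / 3) ^ j) ∈ Gam N d := by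
    intro j hj
    have hchar : ((1 - ((2 : k) / 3) ^ (j + 1)) ^ 2 ≠ 1) := by
      intro h
      have h1 : ((2 : k) / 3) ^ (j + 1) * (((2 : k) / 3) ^ (j + 1) - 2) = 0 := by
        linear_combination h
      rcases mul_eq_zero.1 h1 with h2 | h2
      · exact pow_ne_zero _ (div_ne_zero two_ne_zero three_ne_zero) h2
      · have h3 : (((2 : ℚ) / 3) ^ (j + 1) - 2 : ℚ) = 0 := by
          have h4 : ((((2 : ℚ) / 3) ^ (j + 1) - 2 : ℚ) : k) = 0 := by
            push_cast
            exact h2
          exact_mod_cast h4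
        have h5 : ((2 : ℚ) / 3) ^ (j + 1) ≤ 1 := pow_le_one₀ (by norm_num) (by norm_num)
        linarith
    apply Gam.step hdiv hN hd hj hchar
    intro φ hφ
    simp only [map_sub, map_mul, map_pow, map_one, map_ofNat, map_div₀]
    obtain ⟨y, hy⟩ : ∃ y : ℝ, y = (2 / 3) ^ j := ⟨_, rfl⟩
    have hy0 : 0 < y := by rw [hy]; positivity
    have hy1 : y ≤ 1 := by rw [hy]; exact pow_le_one₀ (by norm_num) (by norm_num)
    have hy2 : ((2 : ℝ) / 3) ^ (j + 1) = y * (2 / 3) := by rw [hy, pow_succ]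
    rw [hy2, ← hy]
    constructor
    · nlinarith
    · linarith
  have hall : ∀ j : ℕ, j ≤ m → (1 - ((2 : k) / 3) ^ (m - j)) ∈ Gam N d := by
    intro j
    induction j with
    | zero => intro _; exact hm0
    | succ j ih =>
      intro hj
      apply hdesc
      have : m - (j + 1) + 1 = m - j := by omega
      rw [this]
      exact ih (by omega)
  have h1 := hall m le_rfl
  rwa [Nat.sub_self, pow_zero, sub_self] at h1

/-- (IF-2) Sphere transitivity. -/
theorem sphere_trans_dot (hdiv : Division a b c) {N : Subgroup (AutC a b c)} (hN : N.Normal)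
    (hN1 : N ≠ ⊥) {d : k} (hd : d ≠ 0) {x y : Oct a b c} (hx : dot x 1 = 0) (hy : dot y 1 = 0)
    (hnx : norm x = d) (hny : norm y = d) : ∃ n ∈ N, n.1 x = y := by
  have : NeZero (2 : k) := ⟨two_ne_zero⟩
  have h0 := zero_mem_Gam hdiv hN hN1 hd hx hnx
  obtain ⟨γ, hγ⟩ : ∃ γ, γ = dot x y / d := ⟨_, rfl⟩
  have hγ' : dot x y = γ * d := by rw [hγ, div_mul_cancel₀ _ hd]
  have hnorm : norm (y - γ • x) = d * (1 - γ ^ 2) := by
    rw [norm_sub_smul, hnx, hny, hγ']
    ring
  by_cases hγ2 : γ ^ 2 = 1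
  · have h1 : y - γ • x = 0 := hdiv _ (by rw [hnorm, hγ2]; ring)
    have h2 : (γ - 1) * (γ + 1) = 0 := by linear_combination hγ2
    rcases mul_eq_zero.1 h2 with h3 | h3
    · have h4 : γ = 1 := by linear_combination h3
      rw [h4, one_smul, sub_eq_zero] at h1
      exact ⟨1, N.one_mem, h1.symm⟩
    · have h4 : γ = -1 := by linear_combination h3
      rw [h4, neg_one_smul, sub_neg_eq_add] at h1
      -- two steps through an orthogonal vector
      obtain ⟨u, v, hu, hv, hnu, hnv, huv, -⟩ := id h0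
      obtain ⟨g, hg⟩ := single_trans hdiv hu hx (by rw [hnx, hnu])
      have hz1 : dot (g.1 v) 1 = 0 := by rw [← aut_one g, aut_dot, hv]
      have hnz : norm (g.1 v) = d := by rw [aut_norm, hnv]
      have hxz : dot x (g.1 v) = 0 * d := by rw [← hg, aut_dot, huv]
      have hzy : dot (g.1 v) y = 0 * d := by
        have : y = -x := eq_neg_of_add_eq_zero_left h1
        rw [this, dot_neg_right, dot_comm, hxz, zero_mul, neg_zero]
      obtain ⟨n, hn, hn'⟩ := Gam.all hdiv hN hd h0 hx hz1 hnx hnz hxz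
      obtain ⟨m, hm, hm'⟩ := Gam.all hdiv hN hd h0 hz1 hy hnz hny hzy
      refine ⟨m * n, N.mul_mem hm hn, ?_⟩
      change m.1 (n.1 x) = y
      rw [hn', hm']
  · have hmem : γ ∈ Gam N d := by
      apply Gam.step hdiv hN hd h0 (by simp)
      intro φ hφ
      have e1 := norm_posD hφ hd hnx
      have e2 : 0 < φ (d * (1 - γ ^ 2)) :=
        norm_posD hφ (mul_ne_zero hd (fun h => hγ2 (by linear_combination -h))) hnorm
      rw [map_mul] at e2
      have e3 := (mul_pos_iff_of_pos_left e1).1 e2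
      rw [map_sub, map_one, map_pow] at e3
      have e4 : φ γ ^ 2 < 1 ^ 2 := by linarith
      have e5 := abs_lt_of_sq_lt_sq e4 zero_le_one
      rw [abs_lt] at e5
      have e6 : φ (2 * (0 : k) ^ 2 - 1) = -1 := by simp
      rw [e6]
      exact e5
    exact Gam.all hdiv hN hd hmem hx hy hnx hny hγ'

/-- (IF-2) Sphere transitivity, with the polar form. -/
theorem sphere_trans (hdiv : Division a b c) (N : Subgroup (AutC a b c)) (hN : N.Normal)
    (hN1 : N ≠ ⊥) {d : k} {x y : Oct a b c} (hx : bil x 1 = 0) (hx' : norm x = d)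
    (hy : bil y 1 = 0) (hy' : norm y = d) (hd : d ≠ 0) : ∃ n ∈ N, n.1 x = y := by
  have : NeZero (2 : k) := ⟨two_ne_zero⟩
  exact sphere_trans_dot hdiv hN hN1 hd (dot_eq_zero_iff_bil.2 hx) (dot_eq_zero_iff_bil.2 hy)
    hx' hy'

end nf

end Vale.Agent.P011.D4.IF
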