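import Vale.Agent.P011.D4.R1

/-!
Automorphisms of order three of an octonion algebra: conjugations by the elements of order three.
-/

namespace Vale.Agent.P011.D4.IF

open Vale.Agent.P011.MPQ Vale.Agent.P011.D4 Vale.Agent.P011.D4.Oct

variable {F : Type} [Field F] {a b c : Fˣ}

/-- The right Moufang identity. -/
theorem moufang_right [NeZero (2 : F)] (x y z : Oct a b c) : z * ((x * y) * x) = ((z * x) * y) * x := by
  have h := congrArg star (moufang_left (star x) (star y) (star z))
  simpa only [star_mul, star_star] using h

/-- The associator of `u`, `y` and the conjugate of `u` vanishes. -/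
theorem mul_mul_star' (u y : Oct a b c) : (u * y) * star u = u * (y * star u) := by
  rw [star_eq u, mul_sub, mul_sub, mul_smul_oct, mul_smul_oct, mul_one, mul_one, mul_sub,
    mul_smul_oct, flex]

/-- An element of trace `-1` and of norm one. -/
structure Three (u : Oct a b c) : Prop where
  norm : Oct.norm u = 1
  tr : bil u 1 = -1

theorem Three.star_eq {u : Oct a b c} (h : Three u) : star u = -1 - u := by
  rw [Oct.star_eq, h.tr, neg_one_smul]

theorem Three.sq {u : Oct a b c} (h : Three u) : u * u = star u := by
  rw [mul_self_eq, h.tr, h.norm, neg_one_smul, one_smul, h.star_eq]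
  abel

theorem Three.star {u : Oct a b c} (h : Three u) : Three (star u) := by
  refine ⟨by rw [Oct.norm_star, h.norm], ?_⟩
  rw [bil_star_left, star_one, h.tr]

theorem Three.star_sq {u : Oct a b c} (h : Three u) : Star.star u * Star.star u = u := by
  rw [h.star.sq, star_star]

theorem Three.star_mul {u : Oct a b c} (h : Three u) (x : Oct a b c) :
    Star.star u * (u * x) = x := by
  rw [star_mul_mul, h.norm, one_smul]

theorem Three.mul_star_mul {u : Oct a b c} (h : Three u) (x : Oct a b c) :
    u * (Star.star u * x) = x := by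
  rw [Oct.mul_star_mul, h.norm, one_smul]

theorem Three.mul_mul_star {u : Oct a b c} (h : Three u) (x : Oct a b c) :
    (x * u) * Star.star u = x := by
  rw [Oct.mul_mul_star, h.norm, one_smul]

theorem Three.mul_star_mul' {u : Oct a b c} (h : Three u) (x : Oct a b c) :
    (x * Star.star u) * u = x := by
  rw [Oct.mul_star_mul', h.norm, one_smul]

/-- The conjugation by an element of order three is multiplicative. -/
theorem Three.conj_mul [NeZero (2 : F)] {u : Oct a b c} (h : Three u) (x y : Oct a b c) :
    ((u * x) * Star.star u) * ((u * y) * Star.star u) = (u * (x * y)) * Star.star u := by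
  obtain ⟨X, rfl⟩ : ∃ X, x = Star.star u * X := ⟨u * x, (h.star_mul x).symm⟩
  obtain ⟨W, rfl⟩ : ∃ W, y = (W * u) * u := by
    refine ⟨(y * Star.star u) * Star.star u, ?_⟩
    rw [h.mul_star_mul', h.mul_star_mul']
  have e1 : (u * ((W * u) * u)) * Star.star u = (u * W) * u := by
    rw [mul_mul_star', h.mul_mul_star, flex]
  have e2 : (Star.star u * X) * ((W * u) * u) = (Star.star u * (X * W)) * Star.star u := by
    have e3 : (W * u) * u = W * Star.star u := by rw [mul_self_mul, h.sq]
    rw [e3, moufang]
  have e4 : u * ((Star.star u * (X * W)) * Star.star u) = (X * W) * Star.star u := by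
    rw [← mul_mul_star', h.mul_star_mul]
  rw [h.mul_star_mul, e1, e2, e4, moufang_right, h.mul_star_mul', mul_self_mul, h.star_sq]

variable [NeZero (2 : F)]

/-- The conjugation by an element of order three. -/
def Zu {u : Oct a b c} (h : Three u) : AutC a b c :=
  ⟨{ toFun := fun x => (u * x) * star u
     invFun := fun x => (star u * x) * u
     left_inv := fun x => by
       change (star u * ((u * x) * star u)) * u = x
       rw [mul_mul_star', h.star_mul, h.mul_star_mul']
     right_inv := fun x => by
       change (u * ((star u * x) * u)) * star u = x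
       have e := mul_mul_star' (star u) x
       rw [star_star] at e
       rw [e, h.mul_star_mul, h.mul_mul_star]
     map_add' := fun x y => by rw [mul_add, add_mul]
     map_smul' := fun t x => by
       rw [mul_smul_oct, smul_mul_oct]
       rfl }, fun x y => (h.conj_mul x y).symm⟩

theorem Zu_apply {u : Oct a b c} (h : Three u) (x : Oct a b c) : (Zu h).1 x = (u * x) * star u :=
  rfl

/-- The image of an element of order three under an automorphism. -/
theorem Three.map {u : Oct a b c} (h : Three u) (g : AutC a b c) : Three (g.1 u) := by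
  refine ⟨by rw [aut_norm, h.norm], ?_⟩
  rw [← aut_one g, aut_bil, h.tr]

theorem Zu_conj {u : Oct a b c} (h : Three u) (g : AutC a b c) : g * Zu h * g⁻¹ = Zu (h.map g) := by
  apply Subtype.ext
  apply LinearEquiv.ext
  intro x
  obtain ⟨y, rfl⟩ : ∃ y, g.1 y = x := g.1.surjective x
  change g.1 ((Zu h).1 (g.1.symm (g.1 y))) = (Zu (h.map g)).1 (g.1 y)
  rw [LinearEquiv.symm_apply_apply, Zu_apply, Zu_apply, g.2, g.2, aut_star]

/-- A normal subgroup that is transitive on the elements of order three contains the commutators
with the conjugations. -/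
theorem Zu_comm {N : Subgroup (AutC a b c)} (hN : N.Normal)
    (htr : ∀ u v : Oct a b c, Three u → Three v → ∃ n ∈ N, n.1 u = v)
    {u : Oct a b c} (h : Three u) (g : AutC a b c) : g * Zu h * g⁻¹ * (Zu h)⁻¹ ∈ N := by
  obtain ⟨n, hn, hnu⟩ := htr u (g.1 u) h (h.map g)
  have e : g * Zu h * g⁻¹ = n * Zu h * n⁻¹ := by
    rw [Zu_conj, Zu_conj]
    congr 1
    exact hnu.symm
  have e1 : n * Zu h * n⁻¹ * (Zu h)⁻¹ = n * (Zu h * n⁻¹ * (Zu h)⁻¹) := by group
  rw [e, e1]
  exact mul_mem hn (hN.conj_mem _ (inv_mem hn) _)

/-- Transitivity on the pure vectors of norm three gives transitivity on the elements of order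
three. -/
theorem three_trans [NeZero (3 : F)] {N : Subgroup (AutC a b c)}
    (htr : ∀ x y : Oct a b c, bil x 1 = 0 → bil y 1 = 0 → Oct.norm x = 3 → Oct.norm y = 3 →
      ∃ n ∈ N, n.1 x = y) (u v : Oct a b c) (hu : Three u) (hv : Three v) :
    ∃ n ∈ N, n.1 u = v := by
  have h0 : ∀ {u : Oct a b c}, Three u → bil ((2 : F) • u + 1) 1 = 0 ∧
      Oct.norm ((2 : F) • u + 1) = 3 := by
    intro u hu
    have h1 : bil (1 : Oct a b c) 1 = 2 := by rw [bil_self, Oct.norm_one, mul_one]
    constructor
    · rw [bil_add_left, bil_smul_left, hu.tr, h1]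
      ring
    · rw [norm_add, Oct.norm_smul, hu.norm, Oct.norm_one, bil_smul_left, hu.tr]
      ring
  obtain ⟨n, hn, e⟩ := htr _ _ (h0 hu).1 (h0 hv).1 (h0 hu).2 (h0 hv).2
  refine ⟨n, hn, ?_⟩
  rw [map_add, map_smul, aut_one] at e
  have e1 := add_right_cancel e
  exact smul_right_injective _ (NeZero.ne (2 : F)) e1

end Vale.Agent.P011.D4.IF
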